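import Vale.Agent.P281.H152.R.Lat

/-!
# P281, T-UD, block R6 (helper152), part 4: the parametrization of the everywhere tangent vectors and
their periods.
-/

open Set Filter Metric
open scoped Topology ContDiff

noncomputable section

namespace Vale.Agent.P281.H152.R

variable {d n b nb : ℕ} {P V : Type*} [NormedAddCommGroup P] [NormedSpace ℂ P]
  [NormedAddCommGroup V] [NormedSpace ℂ V] {I : Type*}

/-- `ℂ^b` with its Hermitian inner product -/
abbrev Vd (b : ℕ) : Type := EuclideanSpace ℂ (Fin b)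

/-- the linear map `ξ ↦ ∑ ξ_i π_t (x i)` -/
def jm (π : P → ((Fin n → ℝ) ≃L[ℝ] V)) (x : Fin b → (Fin n → ℝ)) (t : P) : Vd b →L[ℂ] V :=
  ∑ i, (EuclideanSpace.proj i : Vd b →L[ℂ] ℂ).smulRight (π t (x i))

theorem jm_apply (π : P → ((Fin n → ℝ) ≃L[ℝ] V)) (x : Fin b → (Fin n → ℝ)) (t : P) (ξ : Vd b) :
    jm π x t ξ = ∑ i, ξ i • π t (x i) := by
  unfold jm
  rw [sum_apply]
  rfl

/-- the left inverse of `jm` given by the linear map `m` -/
def cj (π : P → ((Fin n → ℝ) ≃L[ℝ] V)) (x : Fin b → (Fin n → ℝ)) (m : V →L[ℂ] Vd b) (t : P) :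
    V →L[ℂ] Vd b := (Ring.inverse (m.comp (jm π x t))).comp m

section
variable {π : P → ((Fin n → ℝ) ≃L[ℝ] V)} {x : Fin b → (Fin n → ℝ)} {m : V →L[ℂ] Vd b} {t : P}

theorem jm_an (hπ : ∀ x, AnalyticAt ℂ (fun s => π s x) t) : AnalyticAt ℂ (jm π x) t := by
  have h1 : jm π x = fun t => ∑ i, (EuclideanSpace.proj i : Vd b →L[ℂ] ℂ).smulRight (π t (x i)) :=
    rfl
  rw [h1]
  refine Finset.analyticAt_fun_sum _ fun i _ => ?_
  exact ((ContinuousLinearMap.smulRightL ℂ (Vd b) V (EuclideanSpace.proj i)).analyticAt _).comp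
    (hπ (x i))

theorem cj_jm (ht : IsUnit (m.comp (jm π x t))) (ξ : Vd b) : cj π x m t (jm π x t ξ) = ξ :=
  DFunLike.congr_fun (Ring.inverse_mul_cancel _ ht) ξ

theorem cj_an (hπ : ∀ x, AnalyticAt ℂ (fun s => π s x) t) (ht : IsUnit (m.comp (jm π x t))) :
    AnalyticAt ℂ (cj π x m) t := by
  have h1 : AnalyticAt ℂ (fun t => m.comp (jm π x t)) t :=
    ((ContinuousLinearMap.compL ℂ (Vd b) V (Vd b) m).analyticAt _).comp (jm_an hπ)
  have h2 : AnalyticAt ℂ Ring.inverse (m.comp (jm π x t)) := by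
    obtain ⟨u, hu⟩ := ht
    rw [← hu]
    exact analyticAt_inverse (𝕜 := ℂ) u
  have h3 : AnalyticAt ℂ (fun t => Ring.inverse (m.comp (jm π x t))) t :=
    AnalyticAt.comp (g := Ring.inverse) (f := fun t => m.comp (jm π x t)) h2 h1
  exact AnalyticAt.comp (g := fun A => ((ContinuousLinearMap.compL ℂ V (Vd b) (Vd b)).flip m) A)
    (f := fun t => Ring.inverse (m.comp (jm π x t)))
    (((ContinuousLinearMap.compL ℂ V (Vd b) (Vd b)).flip m).analyticAt _) h3

theorem jm_injective (ht : IsUnit (m.comp (jm π x t))) : Function.Injective (jm π x t) := by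
  intro a a' haa
  rw [← cj_jm ht a, haa, cj_jm ht]

end

/-- The parametrization `jm π x t : ℂ^b → V` of a rational subspace which is complex. -/
theorem exists_j [FiniteDimensional ℂ V] {T : Set P} (hTo : IsOpen T) {B : P → Submodule ℂ V}
    {π : P → ((Fin n → ℝ) ≃L[ℝ] V)} (hπ : ∀ x, ∀ t ∈ T, AnalyticAt ℂ (fun s => π s x) t)
    {R₀ : Submodule ℝ (Fin n → ℝ)} (hR : ∀ t ∈ T, ∀ x, π t x ∈ B t ↔ x ∈ R₀)
    (hb : ∀ t ∈ T, Module.finrank ℂ (B t) = b) {t₀ : P} (ht₀ : t₀ ∈ T) :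
    ∃ (x : Fin b → (Fin n → ℝ)) (m : V →L[ℂ] Vd b) (N : Set P), (∀ i, x i ∈ R₀) ∧ IsOpen N ∧
      t₀ ∈ N ∧ N ⊆ T ∧ ∀ t ∈ N, IsUnit (m.comp (jm π x t)) ∧
        ∀ v, v ∈ B t ↔ ∃ ξ, jm π x t ξ = v := by
  let e : Module.Basis (Fin b) ℂ (B t₀) := Module.finBasisOfFinrankEq ℂ (B t₀) (hb t₀ ht₀)
  let x : Fin b → (Fin n → ℝ) := fun i => (π t₀).symm (e i)
  have hx : ∀ i, π t₀ (x i) = e i := fun i => (π t₀).apply_symm_apply _
  have hxR : ∀ i, x i ∈ R₀ := fun i => (hR t₀ ht₀ _).1 (by rw [hx]; exact (e i).2)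
  have hinj : Function.Injective (jm π x t₀) := by
    rw [injective_iff_map_eq_zero]
    intro ξ hξ
    rw [jm_apply] at hξ
    have h1 : ∑ i, ξ i • e i = 0 := by
      apply Subtype.ext
      rw [AddSubmonoidClass.coe_finsetSum]
      have h2 : ∑ i, ((ξ i • e i : B t₀) : V) = ∑ i, ξ i • π t₀ (x i) := by
        refine Finset.sum_congr rfl fun i _ => ?_
        rw [hx]
        rfl
      rw [h2, hξ]
      rfl
    have h3 := Fintype.linearIndependent_iff.1 e.linearIndependent _ h1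
    ext i
    exact h3 i
  obtain ⟨m₀, hm₀⟩ := (jm π x t₀ : Vd b →ₗ[ℂ] V).exists_leftInverse_of_injective
    (LinearMap.ker_eq_bot.2 hinj)
  let m : V →L[ℂ] Vd b := LinearMap.toContinuousLinearMap m₀
  have hm : m.comp (jm π x t₀) = 1 := by
    ext1 ξ
    exact LinearMap.congr_fun hm₀ ξ
  have hM : ContinuousAt (fun t => m.comp (jm π x t)) t₀ :=
    (((ContinuousLinearMap.compL ℂ (Vd b) V (Vd b) m).analyticAt _).comp
      (jm_an fun x => hπ x t₀ ht₀)).continuousAt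
  have hunit : ∀ᶠ t in 𝓝 t₀, t ∈ T ∧ IsUnit (m.comp (jm π x t)) := by
    refine (hTo.eventually_mem ht₀).and ?_
    have h1 : IsOpen {A : Vd b →L[ℂ] Vd b | IsUnit A} := Units.isOpen
    exact hM (h1.mem_nhds (by
      show IsUnit (m.comp (jm π x t₀))
      rw [hm]; exact isUnit_one))
  obtain ⟨N, hN, hNo, ht₀N⟩ := _root_.eventually_nhds_iff.1 hunit
  refine ⟨x, m, N, hxR, hNo, ht₀N, fun t ht => (hN t ht).1, fun t ht => ⟨(hN t ht).2, fun v => ?_⟩⟩
  have h1 : LinearMap.range (jm π x t : Vd b →ₗ[ℂ] V) = B t := by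
    refine Submodule.eq_of_le_of_finrank_eq ?_ ?_
    · rintro _ ⟨ξ, rfl⟩
      show jm π x t ξ ∈ B t
      rw [jm_apply]
      exact Submodule.sum_mem _ fun i _ => Submodule.smul_mem _ _
        ((hR t (hN t ht).1 _).2 (hxR i))
    · rw [LinearMap.finrank_range_of_inj (jm_injective (hN t ht).2), hb t (hN t ht).1,
        finrank_euclideanSpace, Fintype.card_fin]
  rw [← h1]
  exact Iff.rfl

/-- the real linear map `x ↦ ∑ x_i lam_i` -/
def rl (lam : Fin nb → (Fin n → ℤ)) : (Fin nb → ℝ) →L[ℝ] (Fin n → ℝ) :=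
  ∑ i, (ContinuousLinearMap.proj (R := ℝ) (φ := fun _ : Fin nb => ℝ) i).smulRight (zr (lam i))

theorem rl_apply (lam : Fin nb → (Fin n → ℤ)) (x : Fin nb → ℝ) :
    rl lam x = ∑ i, x i • zr (lam i) := by
  unfold rl
  rw [sum_apply]
  rfl

theorem rl_zr (lam : Fin nb → (Fin n → ℤ)) (c : Fin nb → ℤ) :
    rl lam (zr c) = zr (∑ i, c i • lam i) := by
  rw [rl_apply, ← zrH_apply (∑ i, c i • lam i), map_sum]
  refine Finset.sum_congr rfl fun i _ => ?_
  rw [map_zsmul, zrH_apply, ← Int.cast_smul_eq_zsmul ℝ]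
  rfl

theorem rl_injective {lam : Fin nb → (Fin n → ℤ)}
    (h : LinearIndependent ℝ (fun i => zr (lam i))) : Function.Injective (rl lam) := by
  rw [injective_iff_map_eq_zero]
  intro x hx
  rw [rl_apply] at hx
  exact funext fun i => Fintype.linearIndependent_iff.1 h _ hx i

theorem rl_range {lam : Fin nb → (Fin n → ℤ)} {R₀ : Submodule ℝ (Fin n → ℝ)}
    (h : Submodule.span ℝ (range fun i => zr (lam i)) = R₀) {y : Fin n → ℝ} :
    y ∈ R₀ ↔ ∃ x, rl lam x = y := by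
  rw [← h, Submodule.mem_span_range_iff_exists_fun]
  simp only [rl_apply]

/-- The periods of the parametrization. -/
theorem exists_varpi [FiniteDimensional ℂ V] {N : Set P} (hNo : IsOpen N) {t₀ : P} (ht₀ : t₀ ∈ N)
    {B : P → Submodule ℂ V} {π : P → ((Fin n → ℝ) ≃L[ℝ] V)}
    (hπ : ∀ x, ∀ t ∈ N, AnalyticAt ℂ (fun s => π s x) t)
    {R₀ : Submodule ℝ (Fin n → ℝ)} (hR : ∀ t ∈ N, ∀ x, π t x ∈ B t ↔ x ∈ R₀)
    {x : Fin b → (Fin n → ℝ)} {m : V →L[ℂ] Vd b}
    (hj : ∀ t ∈ N, IsUnit (m.comp (jm π x t)) ∧ ∀ v, v ∈ B t ↔ ∃ ξ, jm π x t ξ = v)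
    {lam : Fin nb → (Fin n → ℤ)} (hli : LinearIndependent ℝ (fun i => zr (lam i)))
    (hsp : Submodule.span ℝ (range fun i => zr (lam i)) = R₀) :
    ∃ ϖ : P → ((Fin nb → ℝ) ≃L[ℝ] Vd b),
      (∀ t ∈ N, ∀ x', jm π x t (ϖ t x') = π t (rl lam x')) ∧
      ∀ x', ∀ t ∈ N, AnalyticAt ℂ (fun t => ϖ t x') t := by
  have key : ∀ t ∈ N, ∃ w : (Fin nb → ℝ) ≃L[ℝ] Vd b, ∀ x',
      jm π x t (w x') = π t (rl lam x') ∧ w x' = cj π x m t (π t (rl lam x')) := by
    intro t ht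
    obtain ⟨hu, hB⟩ := hj t ht
    let L : (Fin nb → ℝ) →ₗ[ℝ] Vd b :=
      ((((cj π x m t).restrictScalars ℝ).comp (π t : (Fin n → ℝ) →L[ℝ] V)).comp
        (rl lam) : (Fin nb → ℝ) →L[ℝ] Vd b)
    have hL : ∀ x', L x' = cj π x m t (π t (rl lam x')) := fun _ => rfl
    have hjL : ∀ x', jm π x t (L x') = π t (rl lam x') := by
      intro x'
      have h1 : π t (rl lam x') ∈ B t := (hR t ht _).2 ((rl_range hsp).2 ⟨x', rfl⟩)
      obtain ⟨ξ, hξ⟩ := (hB _).1 h1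
      rw [hL, ← hξ, cj_jm hu]
    have hbij : Function.Bijective L := by
      constructor
      · rw [injective_iff_map_eq_zero]
        intro x' hx'
        have h1 := hjL x'
        rw [hx', map_zero] at h1
        have h2 : rl lam x' = 0 := (π t).injective (by rw [← h1, map_zero])
        exact (injective_iff_map_eq_zero _).1 (rl_injective hli) x' h2
      · intro ξ
        have h1 : jm π x t ξ ∈ B t := (hB _).2 ⟨ξ, rfl⟩
        have h2 : (π t).symm (jm π x t ξ) ∈ R₀ := (hR t ht _).1 (by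
          rw [(π t).apply_symm_apply]; exact h1)
        obtain ⟨x', hx'⟩ := (rl_range hsp).1 h2
        refine ⟨x', ?_⟩
        rw [hL, hx', (π t).apply_symm_apply, cj_jm hu]
    let w : (Fin nb → ℝ) ≃L[ℝ] Vd b := (LinearEquiv.ofBijective L hbij).toContinuousLinearEquiv
    exact ⟨w, fun x' => ⟨hjL x', hL x'⟩⟩
  classical
  obtain ⟨w₀, -⟩ := key t₀ ht₀
  choose w hw using key
  refine ⟨fun t => if h : t ∈ N then w t h else w₀, ?_, ?_⟩
  · intro t ht x'
    simp only [dif_pos ht]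
    exact (hw t ht x').1
  · intro x' t ht
    have h1 : AnalyticAt ℂ (fun t => cj π x m t (π t (rl lam x'))) t :=
      an_apply (cj_an (fun x => hπ x t ht) (hj t ht).1) (hπ _ t ht)
    refine h1.congr ?_
    filter_upwards [hNo.mem_nhds ht] with s hs
    simp only [dif_pos hs]
    exact (hw s hs x').2.symm

end Vale.Agent.P281.H152.R
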