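import Mathlib

/-!
# P281, T-UD, block R6 (helper152), part 1: the everywhere tangent vectors of a family of immersions.
-/

open Set Filter Metric
open scoped Topology ContDiff

noncomputable section

namespace Vale.Agent.P281.H152.R

/-- `ℂ^d` -/
abbrev Cm (d : ℕ) : Type := Fin d → ℂ

variable {d : ℕ} {P V : Type*} [NormedAddCommGroup P] [NormedSpace ℂ P] [NormedAddCommGroup V]
  [NormedSpace ℂ V] {I : Type*}

/-- the derivative of the sheet number `i` at `(t, z)` in the direction of the fibre -/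
def dH (H : I → P × Cm d → V) (i : I) (t : P) (z : Cm d) : Cm d →L[ℂ] V :=
  fderiv ℂ (fun z => H i (t, z)) z

theorem an_apply {A B C : Type*} [NormedAddCommGroup A] [NormedSpace ℂ A] [NormedAddCommGroup B]
    [NormedSpace ℂ B] [NormedAddCommGroup C] [NormedSpace ℂ C] {Φ : A → (B →L[ℂ] C)} {v : A → B}
    {t : A} (h1 : AnalyticAt ℂ Φ t) (h2 : AnalyticAt ℂ v t) : AnalyticAt ℂ (fun s => Φ s (v s)) t := by
  have h3 := (ContinuousLinearMap.id ℂ (B →L[ℂ] C)).analyticAt_bilinear (Φ t, v t)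
  exact AnalyticAt.fun_comp (f := fun s => (Φ s, v s)) h3 (h1.prod h2)

/-- the everywhere tangent vectors of the immersions `H i (t, ·)` -/
def Bt (H : I → P × Cm d → V) (t : P) : Submodule ℂ V where
  carrier := {v | ∀ i, ∀ z ∈ ball (0 : Cm d) 3, ∃ ξ, dH H i t z ξ = v}
  add_mem' := by
    intro a b ha hb i z hz
    obtain ⟨ξ, hξ⟩ := ha i z hz
    obtain ⟨η, hη⟩ := hb i z hz
    exact ⟨ξ + η, by rw [map_add, hξ, hη]⟩
  zero_mem' := fun i z _ => ⟨0, map_zero _⟩
  smul_mem' := by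
    intro c a ha i z hz
    obtain ⟨ξ, hξ⟩ := ha i z hz
    exact ⟨c • ξ, by rw [map_smul, hξ]⟩

theorem mem_Bt {H : I → P × Cm d → V} {t : P} {v : V} :
    v ∈ Bt H t ↔ ∀ i, ∀ z ∈ ball (0 : Cm d) 3, ∃ ξ, dH H i t z ξ = v := Iff.rfl

/-- a holomorphic family of immersions -/
structure IsFamH (T : Set P) (H : I → P × Cm d → V) : Prop where
  an : ∀ i, ∀ t ∈ T, ∀ z ∈ ball (0 : Cm d) 3, AnalyticAt ℂ (H i) (t, z)
  inj : ∀ i, ∀ t ∈ T, ∀ z ∈ ball (0 : Cm d) 3, Function.Injective (dH H i t z)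

/-- the derivative in the direction of the fibre is analytic -/
theorem dH_an [CompleteSpace V] {H : I → P × Cm d → V} {i : I} {t : P} {z : Cm d}
    (h : AnalyticAt ℂ (H i) (t, z)) : AnalyticAt ℂ (fun q : P × Cm d => dH H i q.1 q.2) (t, z) := by
  have h1 : AnalyticAt ℂ (fun q : P × Cm d =>
      (fderiv ℂ (H i) q).comp (ContinuousLinearMap.inr ℂ P (Cm d))) (t, z) :=
    (((ContinuousLinearMap.compL ℂ (Cm d) (P × Cm d) V).flip
      (ContinuousLinearMap.inr ℂ P (Cm d))).analyticAt _).comp h.fderiv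
  refine h1.congr ?_
  filter_upwards [h.eventually_analyticAt] with q hq
  have h2 : HasFDerivAt (H i) (fderiv ℂ (H i) (q.1, q.2)) (q.1, q.2) :=
    hq.differentiableAt.hasFDerivAt
  have h3 : HasFDerivAt (fun z : Cm d => H i (q.1, z))
      ((fderiv ℂ (H i) (q.1, q.2)).comp (ContinuousLinearMap.inr ℂ P (Cm d))) q.2 := by
    have h4 : HasFDerivAt (fun z : Cm d => (q.1, z)) (ContinuousLinearMap.inr ℂ P (Cm d)) q.2 :=
      hasFDerivAt_prodMk_right q.1 q.2
    exact h2.comp q.2 h4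
  exact h3.fderiv.symm

/-- local equation of the condition `v ∈ range (dH H i t z)`, for fixed `z` -/
theorem exists_eqn [FiniteDimensional ℂ V] {T : Set P} {H : I → P × Cm d → V}
    (hH : IsFamH T H) (i : I) {t : P} (ht : t ∈ T) {z : Cm d} (hz : z ∈ ball (0 : Cm d) 3) :
    ∃ Φ : P → (V →L[ℂ] V), AnalyticAt ℂ Φ t ∧
      ∀ᶠ s in 𝓝 t, ∀ v, Φ s v = 0 ↔ ∃ ξ, dH H i s z ξ = v := by
  have : CompleteSpace V := FiniteDimensional.complete ℂ V
  obtain ⟨m₀, hm₀⟩ := (dH H i t z : Cm d →ₗ[ℂ] V).exists_leftInverse_of_injective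
    (LinearMap.ker_eq_bot.2 (hH.inj i t ht z hz))
  let m : V →L[ℂ] Cm d := LinearMap.toContinuousLinearMap m₀
  have hm : m.comp (dH H i t z) = 1 := by
    ext1 ξ
    exact LinearMap.congr_fun hm₀ ξ
  have hD : AnalyticAt ℂ (fun s => dH H i s z) t := by
    have h1 := dH_an (hH.an i t ht z hz)
    exact AnalyticAt.fun_comp (g := fun q : P × Cm d => dH H i q.1 q.2)
      (f := fun s : P => (s, z)) h1 (analyticAt_id.prod analyticAt_const)
  let M : P → (Cm d →L[ℂ] Cm d) := fun s => m.comp (dH H i s z)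
  have hM : AnalyticAt ℂ M t :=
    ((ContinuousLinearMap.compL ℂ (Cm d) V (Cm d) m).analyticAt _).comp hD
  have hMt : M t = 1 := hm
  have hunit : ∀ᶠ s in 𝓝 t, IsUnit (M s) := by
    have h1 : IsOpen {A : Cm d →L[ℂ] Cm d | IsUnit A} := Units.isOpen
    exact hM.continuousAt (h1.mem_nhds (by
      show IsUnit (M t)
      rw [hMt]; exact isUnit_one))
  have hinv : AnalyticAt ℂ (fun s => Ring.inverse (M s)) t := by
    have h1 : AnalyticAt ℂ Ring.inverse (M t) := by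
      rw [hMt]
      exact analyticAt_inverse (𝕜 := ℂ) (1 : (Cm d →L[ℂ] Cm d)ˣ)
    exact h1.comp hM
  refine ⟨fun s => ((dH H i s z).comp (Ring.inverse (M s))).comp m - ContinuousLinearMap.id ℂ V,
    ?_, ?_⟩
  · refine AnalyticAt.sub ?_ analyticAt_const
    have h1 : AnalyticAt ℂ (fun s => (dH H i s z).comp (Ring.inverse (M s))) t := by
      have h2 := (ContinuousLinearMap.compL ℂ (Cm d) (Cm d) V).analyticAt_bilinear
        (dH H i t z, Ring.inverse (M t))
      exact AnalyticAt.fun_comp (f := fun s => (dH H i s z, Ring.inverse (M s))) h2 (hD.prod hinv)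
    exact (((ContinuousLinearMap.compL ℂ V (Cm d) V).flip m).analyticAt _).comp h1
  · filter_upwards [hunit] with s hs v
    have h1 : ∀ ξ, M s (Ring.inverse (M s) ξ) = ξ := fun ξ =>
      DFunLike.congr_fun (Ring.mul_inverse_cancel (M s) hs) ξ
    have h2 : ∀ ξ, Ring.inverse (M s) (M s ξ) = ξ := fun ξ =>
      DFunLike.congr_fun (Ring.inverse_mul_cancel (M s) hs) ξ
    constructor
    · intro h
      refine ⟨Ring.inverse (M s) (m v), ?_⟩
      have h3 : dH H i s z (Ring.inverse (M s) (m v)) - v = 0 := h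
      exact sub_eq_zero.1 h3
    · rintro ⟨ξ, rfl⟩
      show dH H i s z (Ring.inverse (M s) (m (dH H i s z ξ))) - dH H i s z ξ = 0
      have h3 : m (dH H i s z ξ) = M s ξ := rfl
      rw [h3, h2, sub_self]

variable [FiniteDimensional ℂ V] {T : Set P} {H : I → P × Cm d → V}

/-- the condition `v t ∈ Bt H t` is closed -/
theorem Bt_closed (hH : IsFamH T H) {v : P → V} (hv : ∀ t ∈ T, AnalyticAt ℂ v t) {t : P}
    (ht : t ∈ T) (h : ∃ᶠ s in 𝓝 t, v s ∈ Bt H s) : v t ∈ Bt H t := by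
  intro i z hz
  obtain ⟨Φ, h1, h2⟩ := exists_eqn hH i ht hz
  rw [← h2.self_of_nhds]
  by_contra hne
  have h3 : ContinuousAt (fun s => Φ s (v s)) t := h1.continuousAt.clm_apply (hv t ht).continuousAt
  obtain ⟨s, hs, hs1, hs2⟩ := (h.and_eventually (h2.and (h3.eventually_ne hne))).exists
  exact hs2 ((hs1 _).2 (hs i z hz))

/-- **the identity theorem** -/
theorem Bt_ident (hH : IsFamH T H) (hTc : IsPreconnected T) {v : P → V}
    (hv : ∀ t ∈ T, AnalyticAt ℂ v t) {t₀ : P} (ht₀ : t₀ ∈ T) (h0 : ∀ᶠ s in 𝓝 t₀, v s ∈ Bt H s) :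
    ∀ t ∈ T, v t ∈ Bt H t := by
  intro t ht i z hz
  let A : Set P := {t | ∀ᶠ s in 𝓝 t, ∃ ξ, dH H i s z ξ = v s}
  have hAo : IsOpen A := by
    rw [isOpen_iff_mem_nhds]
    exact fun t ht => eventually_eventually_nhds.2 ht
  have h1 : T ⊆ A := by
    refine hTc.subset_of_closure_inter_subset hAo ⟨t₀, ht₀, ?_⟩ ?_
    · filter_upwards [h0] with s hs using hs i z hz
    · rintro t₁ ⟨ht₁, ht₁T⟩
      obtain ⟨Φ, h1, h2⟩ := exists_eqn hH i ht₁T hz
      have h3 : AnalyticAt ℂ (fun s => Φ s (v s)) t₁ := an_apply h1 (hv t₁ ht₁T)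
      obtain ⟨ε, hε, hball⟩ := Metric.eventually_nhds_iff_ball.1
        (h3.eventually_analyticAt.and h2)
      obtain ⟨t₂, ht₂, ht₂A⟩ := mem_closure_iff_nhds.1 ht₁ (ball t₁ ε) (ball_mem_nhds t₁ hε)
      have h4 : (fun s => Φ s (v s)) =ᶠ[𝓝 t₂] 0 := by
        have ht₂A' : ∀ᶠ s in 𝓝 t₂, ∃ ξ, dH H i s z ξ = v s := ht₂A
        filter_upwards [ht₂A', isOpen_ball.mem_nhds ht₂] with s h5 h6
        exact ((hball s h6).2 _).2 h5
      have h5 : AnalyticOnNhd ℂ (fun s => Φ s (v s)) (ball t₁ ε) := fun s hs => (hball s hs).1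
      have h6 := h5.eqOn_zero_of_preconnected_of_eventuallyEq_zero
        (convex_ball t₁ ε).isPreconnected ht₂ h4
      show ∀ᶠ s in 𝓝 t₁, ∃ ξ, dH H i s z ξ = v s
      filter_upwards [ball_mem_nhds t₁ hε] with s hs
      exact ((hball s hs).2 _).1 (h6 hs)
  exact (show ∀ᶠ s in 𝓝 t, ∃ ξ, dH H i s z ξ = v s from h1 ht).self_of_nhds

end Vale.Agent.P281.H152.R
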