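import Vale.Agent.P281.H349.O.Gen
import Vale.Agent.P281.H152.U.Leaf
import Vale.Agent.P281.H64.TU.Spec

/-!
# P281, T-UD, block R6 (helper152), part 7: the rank of the Gauss map and the everywhere tangent
vectors: `dim 𝔟 + r = d`.
-/

open Set Filter Metric
open scoped Topology ContDiff

noncomputable section

namespace Vale.Agent.P281.H152.R

open Vale.Agent.P281.H713 (minor)
open Vale.Agent.P281.H64.TU (RankAt)
open Vale.Agent.P281.H349.O (IsImm Tan bs Cpt Flat Nn KK dF finrank_bs mem_Nn)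

variable {d : ℕ} {V : Type} [NormedAddCommGroup V] [InnerProductSpace ℂ V] [FiniteDimensional ℂ V]

/-- the minors, as functions of the derivative -/
def mK (l : Fin d → (V →L[ℂ] ℂ)) (A : (Fin d → ℂ) →L[ℂ] V) : ℂ :=
  (Matrix.of fun a b => l a (A (Pi.single b 1))).det

theorem minor_eq (l : Fin d → (V →L[ℂ] ℂ)) (h : (Fin d → ℂ) → V) (v : Fin d → ℂ) :
    minor l h v = mK l (fderiv ℂ h v) := rfl

theorem mK_diff (l : Fin d → (V →L[ℂ] ℂ)) : Differentiable ℂ (mK l) := by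
  have h1 : mK l = fun A : (Fin d → ℂ) →L[ℂ] V => ∑ σ : Equiv.Perm (Fin d),
      ((Equiv.Perm.sign σ : ℤ) : ℂ) * ∏ i, l (σ i) (A (Pi.single i 1)) := by
    funext A
    rw [mK, Matrix.det_apply']
    rfl
  rw [h1]
  refine Differentiable.fun_sum fun σ _ => ?_
  refine (differentiable_const _).mul ?_
  intro A
  have h2 : ∀ i, HasFDerivAt (fun A : (Fin d → ℂ) →L[ℂ] V => l (σ i) (A (Pi.single i 1)))
      ((l (σ i)).comp (ContinuousLinearMap.apply ℂ V (Pi.single i (1 : ℂ) : Fin d → ℂ))) A :=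
    fun i => (l (σ i)).hasFDerivAt.comp A
      (ContinuousLinearMap.apply ℂ V (Pi.single i (1 : ℂ) : Fin d → ℂ)).hasFDerivAt
  exact (HasFDerivAt.finsetProd (u := Finset.univ) fun i _ => h2 i).differentiableAt

theorem clm_sum_single (A : (Fin d → ℂ) →L[ℂ] V) (x : Fin d → ℂ) :
    A x = ∑ c, x c • A (Pi.single c 1) := by
  have h1 : x = ∑ c, x c • (Pi.single c (1 : ℂ) : Fin d → ℂ) := by
    funext a
    simp [Finset.sum_apply, Pi.single_apply]
  conv_lhs => rw [h1]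
  rw [map_sum]
  exact Finset.sum_congr rfl fun c _ => map_smul _ _ _

theorem mK_comp (l : Fin d → (V →L[ℂ] ℂ)) (A : (Fin d → ℂ) →L[ℂ] V)
    (B : (Fin d → ℂ) →L[ℂ] (Fin d → ℂ)) : mK l (A.comp B) = mK l A * B.det := by
  have h1 : B.det = (Matrix.of fun a b => B (Pi.single b 1) a).det := by
    show LinearMap.det (B : (Fin d → ℂ) →ₗ[ℂ] (Fin d → ℂ)) = _
    rw [← LinearMap.det_toMatrix']
    congr 1
  rw [h1, mK, mK, ← Matrix.det_mul]
  congr 1
  ext a b
  rw [Matrix.mul_apply, Matrix.of_apply, ContinuousLinearMap.comp_apply,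
    clm_sum_single A (B (Pi.single b 1)), map_sum]
  refine Finset.sum_congr rfl fun c _ => ?_
  rw [map_smul, smul_eq_mul, mul_comm]
  rfl

theorem inj_of_det {B : (Fin d → ℂ) →L[ℂ] (Fin d → ℂ)} (h : B.det ≠ 0) :
    Function.Injective B :=
  (LinearEquiv.injective
    (LinearMap.equivOfDetNeZero (B : (Fin d → ℂ) →ₗ[ℂ] (Fin d → ℂ)) h))

theorem surj_of_det {B : (Fin d → ℂ) →L[ℂ] (Fin d → ℂ)} (h : B.det ≠ 0) :
    Function.Surjective B :=
  (LinearEquiv.surjective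
    (LinearMap.equivOfDetNeZero (B : (Fin d → ℂ) →ₗ[ℂ] (Fin d → ℂ)) h))

theorem det_of_inj {B : (Fin d → ℂ) →L[ℂ] (Fin d → ℂ)} (h : Function.Injective B) :
    B.det ≠ 0 := by
  have h1 : IsUnit (LinearMap.det ((LinearEquiv.ofInjectiveEndo
      (B : (Fin d → ℂ) →ₗ[ℂ] (Fin d → ℂ)) h : (Fin d → ℂ) ≃ₗ[ℂ] (Fin d → ℂ)) :
      (Fin d → ℂ) →ₗ[ℂ] (Fin d → ℂ))) := LinearEquiv.isUnit_det' _
  have h2 : ((LinearEquiv.ofInjectiveEndo (B : (Fin d → ℂ) →ₗ[ℂ] (Fin d → ℂ)) h :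
      (Fin d → ℂ) ≃ₗ[ℂ] (Fin d → ℂ)) : (Fin d → ℂ) →ₗ[ℂ] (Fin d → ℂ)) = B := by
    ext1 x
    rfl
  rw [h2] at h1
  exact h1.ne_zero

/-- the ratios of the minors -/
theorem ratio_diff {h : (Fin d → ℂ) → V} {z : Fin d → ℂ} (hh : AnalyticAt ℂ h z)
    {l l' : Fin d → (V →L[ℂ] ℂ)} (h0 : minor l h z ≠ 0) :
    ∃ R : ((Fin d → ℂ) →L[ℂ] V) →L[ℂ] ℂ, HasFDerivAt (fun u => minor l' h u / minor l h u)
      (R.comp (fderiv ℂ (fderiv ℂ h) z)) z := by
  have h0' : mK l (fderiv ℂ h z) ≠ 0 := h0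
  have h1 : DifferentiableAt ℂ (fun A => mK l' A / mK l A) (fderiv ℂ h z) := by
    simp only [div_eq_mul_inv]
    exact (mK_diff l').differentiableAt.fun_mul ((mK_diff l).differentiableAt.fun_inv h0')
  have hcV : CompleteSpace V := FiniteDimensional.complete ℂ V
  refine ⟨fderiv ℂ (fun A => mK l' A / mK l A) (fderiv ℂ h z), ?_⟩
  exact h1.hasFDerivAt.comp z hh.fderiv.differentiableAt.hasFDerivAt

/-- a smaller rank -/
theorem RankAt.mono {s r : ℕ} (hsr : s ≤ r) {h : (Fin d → ℂ) → V} {z : Fin d → ℂ}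
    {l : Fin (r + 1) → Fin d → (V →L[ℂ] ℂ)} (H : RankAt r h z l) :
    RankAt s h z fun k => l (Fin.castLE (by omega) k) := by
  refine ⟨H.1, fun y => ?_⟩
  obtain ⟨ξ, hξ⟩ := H.2 fun k => if hk : k.1 < s then y ⟨k.1, hk⟩ else 0
  refine ⟨ξ, ?_⟩
  funext k
  have h4 := congrFun hξ (Fin.castLE hsr k)
  simp only [Fin.val_castLE, k.2, dif_pos] at h4
  exact h4

theorem RankAt.congr {s : ℕ} {h h' : (Fin d → ℂ) → V} {z : Fin d → ℂ} (hh : h =ᶠ[𝓝 z] h')
    {l : Fin (s + 1) → Fin d → (V →L[ℂ] ℂ)} (H : RankAt s h z l) : RankAt s h' z l := by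
  have h1 : ∀ l : Fin d → (V →L[ℂ] ℂ), minor l h =ᶠ[𝓝 z] minor l h' := by
    intro l
    filter_upwards [eventually_eventually_nhds.2 hh] with u hu
    rw [minor_eq, minor_eq, Filter.EventuallyEq.fderiv_eq hu]
  refine ⟨by rw [← (h1 (l 0)).self_of_nhds]; exact H.1, fun y => ?_⟩
  obtain ⟨ξ, hξ⟩ := H.2 y
  refine ⟨ξ, ?_⟩
  rw [← hξ]
  funext k
  have h2 : (fun u => minor (l k.succ) h' u / minor (l 0) h' u) =ᶠ[𝓝 z]
      fun u => minor (l k.succ) h u / minor (l 0) h u := by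
    filter_upwards [h1 (l k.succ), h1 (l 0)] with u a b
    rw [a, b]
  simp only
  rw [h2.fderiv_eq]

section comp
variable {F : (Fin d → ℂ) → V} {θ : (Fin d → ℂ) → (Fin d → ℂ)} {z : Fin d → ℂ}

theorem minor_comp (hF : AnalyticAt ℂ F (θ z)) (hθ : AnalyticAt ℂ θ z)
    (l : Fin d → (V →L[ℂ] ℂ)) :
    minor l (fun v => F (θ v)) z = minor l F (θ z) * (fderiv ℂ θ z).det := by
  have h1 : HasFDerivAt (fun v => F (θ v)) ((fderiv ℂ F (θ z)).comp (fderiv ℂ θ z)) z :=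
    hF.differentiableAt.hasFDerivAt.comp z hθ.differentiableAt.hasFDerivAt
  rw [minor_eq, h1.fderiv, mK_comp]
  rfl

theorem minor_comp_ev (hF : AnalyticAt ℂ F (θ z)) (hθ : AnalyticAt ℂ θ z) :
    ∀ᶠ v in 𝓝 z, AnalyticAt ℂ F (θ v) ∧ AnalyticAt ℂ θ v :=
  (hθ.continuousAt.eventually hF.eventually_analyticAt).and hθ.eventually_analyticAt

theorem ratio_comp (hF : AnalyticAt ℂ F (θ z)) (hθ : AnalyticAt ℂ θ z)
    (hdet : (fderiv ℂ θ z).det ≠ 0) {l l' : Fin d → (V →L[ℂ] ℂ)} (h0 : minor l F (θ z) ≠ 0)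
    (ξ : Fin d → ℂ) :
    fderiv ℂ (fun u => minor l' (fun v => F (θ v)) u / minor l (fun v => F (θ v)) u) z ξ =
      fderiv ℂ (fun u => minor l' F u / minor l F u) (θ z) (fderiv ℂ θ z ξ) := by
  have hdc : ∀ᶠ v in 𝓝 z, (fderiv ℂ θ v).det ≠ 0 := by
    have h1 : ContinuousAt (fun v => (fderiv ℂ θ v).det) z :=
      ContinuousAt.comp (g := fun A : (Fin d → ℂ) →L[ℂ] (Fin d → ℂ) => A.det)
        ContinuousLinearMap.continuous_det.continuousAt hθ.fderiv.continuousAt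
    exact h1.eventually_ne hdet
  have h2 : (fun u => minor l' (fun v => F (θ v)) u / minor l (fun v => F (θ v)) u) =ᶠ[𝓝 z]
      fun u => (fun x => minor l' F x / minor l F x) (θ u) := by
    filter_upwards [hdc, minor_comp_ev hF hθ] with v h1 h2
    rw [minor_comp h2.1 h2.2, minor_comp h2.1 h2.2, mul_div_mul_right _ _ h1]
  obtain ⟨R, hR⟩ := ratio_diff hF (l := l) (l' := l') h0
  have h3 : HasFDerivAt (fun u => (fun x => minor l' F x / minor l F x) (θ u))
      ((R.comp (fderiv ℂ (fderiv ℂ F) (θ z))).comp (fderiv ℂ θ z)) z :=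
    hR.comp z hθ.differentiableAt.hasFDerivAt
  rw [h2.fderiv_eq, h3.fderiv, hR.fderiv]
  rfl

theorem RankAt.of_comp (hF : AnalyticAt ℂ F (θ z)) (hθ : AnalyticAt ℂ θ z) {s : ℕ}
    {l : Fin (s + 1) → Fin d → (V →L[ℂ] ℂ)} (H : RankAt s (fun v => F (θ v)) z l) :
    (fderiv ℂ θ z).det ≠ 0 ∧ RankAt s F (θ z) l := by
  have h0 := H.1
  rw [minor_comp hF hθ] at h0
  have h1 := left_ne_zero_of_mul h0
  have h2 := right_ne_zero_of_mul h0
  refine ⟨h2, h1, fun y => ?_⟩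
  obtain ⟨ξ, hξ⟩ := H.2 y
  refine ⟨fderiv ℂ θ z ξ, ?_⟩
  rw [← hξ]
  funext k
  exact (ratio_comp hF hθ h2 h1 ξ).symm

theorem RankAt.comp (hF : AnalyticAt ℂ F (θ z)) (hθ : AnalyticAt ℂ θ z)
    (hdet : (fderiv ℂ θ z).det ≠ 0) {s : ℕ}
    {l : Fin (s + 1) → Fin d → (V →L[ℂ] ℂ)} (H : RankAt s F (θ z) l) :
    RankAt s (fun v => F (θ v)) z l := by
  refine ⟨?_, fun y => ?_⟩
  · rw [minor_comp hF hθ]
    exact mul_ne_zero H.1 hdet
  · obtain ⟨ξ, hξ⟩ := H.2 y
    obtain ⟨η, rfl⟩ := surj_of_det hdet ξ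
    refine ⟨η, ?_⟩
    rw [← hξ]
    funext k
    exact ratio_comp hF hθ hdet H.1 η

end comp

section flat
variable {E : Type} [TopologicalSpace E] {h : E → V} {m : V →L[ℂ] (Fin d → ℂ)}
  {ψ : OpenPartialHomeomorph E (Fin d → ℂ)} {e : E}

theorem flat_mem (H : Flat h m ψ) (he : e ∈ ψ.source) : m (h e) ∈ ψ.target := by
  rw [← H.eq e he]; exact ψ.map_source he

theorem Nn_eq (H : Flat h m ψ) (he : e ∈ ψ.source) {u : Fin d → ℂ} :
    u ∈ Nn h m e ↔ fderiv ℂ (fderiv ℂ fun x => h (ψ.symm x)) (m (h e)) u = 0 := by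
  rw [mem_Nn, H.dF_eq he]
  have h1 : (fun x => KK h m (ψ.symm x)) =ᶠ[𝓝 (m (h e))] fderiv ℂ fun x => h (ψ.symm x) := by
    filter_upwards [ψ.open_target.mem_nhds (flat_mem H he)] with x hx
    exact H.dF_symm hx h
  rw [h1.fderiv_eq]

/-- the rank of the Gauss map is at most `d - dim N` -/
theorem rank_add_le (H : Flat h m ψ) (he : e ∈ ψ.source) {s : ℕ}
    {l : Fin (s + 1) → Fin d → (V →L[ℂ] ℂ)}
    (hR : RankAt s (fun x => h (ψ.symm x)) (m (h e)) l) :
    s + Module.finrank ℂ (Nn h m e) ≤ d := by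
  have han := H.an _ (flat_mem H he)
  choose R hR' using fun k : Fin s => ratio_diff han (l := l 0) (l' := l k.succ) hR.1
  let D : (Fin d → ℂ) →ₗ[ℂ] (Fin s → ℂ) := LinearMap.pi fun k =>
    ((R k).comp (fderiv ℂ (fderiv ℂ fun x => h (ψ.symm x)) (m (h e))) :
      (Fin d → ℂ) →ₗ[ℂ] ℂ)
  have hD : Function.Surjective D := by
    intro y
    obtain ⟨ξ, hξ⟩ := hR.2 y
    refine ⟨ξ, ?_⟩
    rw [← hξ]
    funext k
    exact (congrArg (fun L : (Fin d → ℂ) →L[ℂ] ℂ => L ξ) (hR' k).fderiv).symm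
  have h1 : Nn h m e ≤ LinearMap.ker D := by
    intro u hu
    rw [LinearMap.mem_ker]
    funext k
    show R k (fderiv ℂ (fderiv ℂ fun x => h (ψ.symm x)) (m (h e)) u) = 0
    rw [(Nn_eq H he).1 hu, map_zero]
  have h2 : s + Module.finrank ℂ (LinearMap.ker D) = d := by
    have h2 := LinearMap.finrank_range_add_finrank_ker D
    rw [LinearMap.range_eq_top.2 hD, finrank_top, Module.finrank_fin_fun,
      Module.finrank_fin_fun] at h2
    exact h2
  have h3 : Module.finrank ℂ (Nn h m e) ≤ Module.finrank ℂ (LinearMap.ker D) :=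
    Submodule.finrank_mono h1
  calc s + Module.finrank ℂ (Nn h m e) ≤ s + Module.finrank ℂ (LinearMap.ker D) :=
        Nat.add_le_add_left h3 s
    _ = d := h2

/-- the rank of the Gauss map is at least `d - dim N` -/
theorem exists_rank (H : Flat h m ψ) (he : e ∈ ψ.source) {s : ℕ}
    (hs : s + Module.finrank ℂ (Nn h m e) ≤ d) :
    ∃ l, RankAt s (fun x => h (ψ.symm x)) (m (h e)) l := by
  classical
  have hcV : CompleteSpace V := FiniteDimensional.complete ℂ V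
  set F : (Fin d → ℂ) → V := fun x => h (ψ.symm x) with hF
  set x₀ := m (h e) with hx₀
  have hx₀t : x₀ ∈ ψ.target := flat_mem H he
  set T := fderiv ℂ (fderiv ℂ F) x₀ with hT
  let ℓ : (V →L[ℂ] ℂ) × Fin d → ((Fin d → ℂ) →ₗ[ℂ] ℂ) := fun i =>
    (i.1.comp ((ContinuousLinearMap.apply ℂ V (Pi.single i.2 (1 : ℂ) : Fin d → ℂ)).comp T) :
      (Fin d → ℂ) →ₗ[ℂ] ℂ)
  have hℓ : ∀ i u, ℓ i u = i.1 (T u (Pi.single i.2 1)) := fun i u => rfl
  obtain ⟨κ, a, ha, hspan, hind⟩ := exists_linearIndependent' ℂ ℓ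
  have : Finite κ := hind.finite
  have := Fintype.ofFinite κ
  -- the kernel
  have hker : LinearMap.ker (LinearMap.pi fun k : κ => ℓ (a k)) ≤ Nn h m e := by
    intro v hv
    rw [LinearMap.mem_ker] at hv
    rw [Nn_eq H he]
    show T v = 0
    have h0 : ∀ i, ℓ i v = 0 := by
      intro i
      let S : Submodule ℂ ((Fin d → ℂ) →ₗ[ℂ] ℂ) :=
        LinearMap.ker (LinearMap.applyₗ (R := ℂ) (M₂ := ℂ) v)
      have h1 : Submodule.span ℂ (Set.range ℓ) ≤ S := by
        rw [← hspan, Submodule.span_le]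
        rintro _ ⟨k, rfl⟩
        exact congrFun hv k
      exact h1 (Submodule.subset_span ⟨i, rfl⟩)
    ext1 x
    rw [clm_sum_single (T v) x, zero_apply]
    refine Finset.sum_eq_zero fun c _ => ?_
    have h1 : T v (Pi.single c 1) = 0 := by
      refine (SeparatingDual.eq_zero_iff_forall_dual_eq_zero (R := ℂ) _).2 fun l => ?_
      exact h0 (l, c)
    rw [h1, smul_zero]
  have hcard : d ≤ Fintype.card κ + Module.finrank ℂ (Nn h m e) := by
    let P : (Fin d → ℂ) →ₗ[ℂ] (κ → ℂ) := LinearMap.pi fun k : κ => ℓ (a k)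
    have h1 : Module.finrank ℂ (LinearMap.range P) + Module.finrank ℂ (LinearMap.ker P) = d := by
      have h1 := LinearMap.finrank_range_add_finrank_ker P
      rwa [Module.finrank_fin_fun] at h1
    have h2 : Module.finrank ℂ (LinearMap.ker P) ≤ Module.finrank ℂ (Nn h m e) :=
      Submodule.finrank_mono hker
    have h3 : Module.finrank ℂ (LinearMap.range P) ≤ Fintype.card κ := by
      refine (Submodule.finrank_le _).trans ?_
      rw [Module.finrank_fintype_fun_eq_card]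
    calc d = Module.finrank ℂ (LinearMap.range P) + Module.finrank ℂ (LinearMap.ker P) := h1.symm
      _ ≤ Fintype.card κ + Module.finrank ℂ (Nn h m e) := Nat.add_le_add h3 h2
  have hsc : s ≤ Fintype.card κ := by omega
  let j : Fin s → κ := fun k => (Fintype.equivFin κ).symm (Fin.castLE hsc k)
  have hj : Function.Injective j :=
    (Fintype.equivFin κ).symm.injective.comp (Fin.castLE_injective hsc)
  let lam : Fin s → (V →L[ℂ] ℂ) := fun k => (a (j k)).1
  let w : Fin s → Fin d := fun k => (a (j k)).2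
  have hindj : LinearIndependent ℂ fun k => ℓ (a (j k)) := hind.comp j hj
  let l0 : Fin d → (V →L[ℂ] ℂ) := fun a => (ContinuousLinearMap.proj a).comp m
  let l : Fin (s + 1) → Fin d → (V →L[ℂ] ℂ) := Fin.cons l0 fun k =>
    Function.update l0 (w k) (lam k)
  have hl0 : l 0 = l0 := rfl
  have hls : ∀ k : Fin s, l k.succ = Function.update l0 (w k) (lam k) := fun k => rfl
  have hone : ∀ x ∈ ψ.target, (Matrix.of fun a b => l0 a (fderiv ℂ F x (Pi.single b 1))) = 1 := by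
    intro x hx
    ext a b
    rw [Matrix.of_apply]
    show m (fderiv ℂ F x (Pi.single b 1)) a = _
    rw [H.m_fderiv hx, Matrix.one_apply, Pi.single_apply]
  have hm0 : ∀ x ∈ ψ.target, minor (l 0) F x = 1 := by
    intro x hx
    rw [hl0, minor, hone x hx, Matrix.det_one]
  have hmk : ∀ x ∈ ψ.target, ∀ k : Fin s, minor (l k.succ) F x =
      lam k (fderiv ℂ F x (Pi.single (w k) 1)) := by
    intro x hx k
    have h1 : (Matrix.of fun a b => l k.succ a (fderiv ℂ F x (Pi.single b 1))) =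
        (1 : Matrix (Fin d) (Fin d) ℂ).updateRow (w k)
          (∑ b, (lam k (fderiv ℂ F x (Pi.single b 1))) • (1 : Matrix (Fin d) (Fin d) ℂ) b) := by
      ext a b
      rw [Matrix.of_apply, hls, Matrix.updateRow_apply]
      split_ifs with hab
      · rw [hab, Function.update_self, Finset.sum_apply]
        rw [Finset.sum_eq_single b]
        · rw [Pi.smul_apply, Matrix.one_apply_eq, smul_eq_mul, mul_one]
        · intro c _ hc
          rw [Pi.smul_apply, Matrix.one_apply_ne hc, smul_zero]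
        · intro hb
          exact absurd (Finset.mem_univ b) hb
      · rw [Function.update_of_ne hab, ← hone x hx, Matrix.of_apply]
    rw [minor, h1, Matrix.det_updateRow_sum, Matrix.det_one, smul_eq_mul, mul_one]
  refine ⟨l, ?_, ?_⟩
  · rw [hm0 _ hx₀t]
    exact one_ne_zero
  · intro y
    obtain ⟨ξ, hξ⟩ := U.surj_of_indep hindj y
    refine ⟨ξ, ?_⟩
    rw [← hξ]
    funext k
    have h1 : (fun u => minor (l k.succ) F u / minor (l 0) F u) =ᶠ[𝓝 x₀]
        fun u => lam k (fderiv ℂ F u (Pi.single (w k) 1)) := by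
      filter_upwards [ψ.open_target.mem_nhds hx₀t] with u hu
      rw [hm0 u hu, hmk u hu, div_one]
    have h2 : HasFDerivAt (fun u => lam k (fderiv ℂ F u (Pi.single (w k) 1)))
        ((lam k).comp ((ContinuousLinearMap.apply ℂ V
          (Pi.single (w k) (1 : ℂ) : Fin d → ℂ)).comp T)) x₀ := by
      have h3 : HasFDerivAt (fderiv ℂ F) T x₀ :=
        (H.an _ hx₀t).fderiv.differentiableAt.hasFDerivAt
      exact (lam k).hasFDerivAt.comp x₀
        ((ContinuousLinearMap.apply ℂ V (Pi.single (w k) (1 : ℂ) : Fin d → ℂ)).hasFDerivAt.comp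
          x₀ h3)
    simp only
    rw [h1.fderiv_eq, h2.fderiv]
    rfl

/-- coordinates in a flat chart -/
theorem flat_param (H : Flat h m ψ) (he : e ∈ ψ.source) {σ : (Fin d → ℂ) → E} {z : Fin d → ℂ}
    (hσ : ContinuousAt σ z) (hz : σ z = e) : ∀ᶠ v in 𝓝 z, σ v ∈ ψ.source ∧
      h (σ v) = h (ψ.symm (m (h (σ v)))) := by
  have h1 : ∀ᶠ v in 𝓝 z, σ v ∈ ψ.source :=
    hσ.eventually (by
      show ∀ᶠ e' in 𝓝 (σ z), e' ∈ ψ.source
      rw [hz]
      exact ψ.open_source.mem_nhds he)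
  filter_upwards [h1] with v hv
  exact ⟨hv, by rw [H.left hv]⟩

/-- **UR0** -/
theorem ur0 (H : Flat h m ψ) (he : e ∈ ψ.source) {σ : (Fin d → ℂ) → E} {z : Fin d → ℂ}
    (hσ : ContinuousAt σ z) (hz : σ z = e) (han : AnalyticAt ℂ (fun v => h (σ v)) z)
    (hinj : Function.Injective (fderiv ℂ (fun v => h (σ v)) z)) {s : ℕ}
    (hs : s + Module.finrank ℂ (Nn h m e) ≤ d) : ∃ l, RankAt s (fun v => h (σ v)) z l := by
  obtain ⟨l, hl⟩ := exists_rank H he hs
  set θ : (Fin d → ℂ) → (Fin d → ℂ) := fun v => m (h (σ v)) with hθ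
  have hθa : AnalyticAt ℂ θ z := (m.analyticAt _).comp han
  have hθz : θ z = m (h e) := by rw [hθ]; simp only [hz]
  have hF : AnalyticAt ℂ (fun x => h (ψ.symm x)) (θ z) := by
    rw [hθz]; exact H.an _ (flat_mem H he)
  have hev : (fun v => h (σ v)) =ᶠ[𝓝 z] fun v => h (ψ.symm (θ v)) := by
    filter_upwards [flat_param H he hσ hz] with v hv using hv.2
  have hdet : (fderiv ℂ θ z).det ≠ 0 := by
    refine det_of_inj ?_
    have h1 : HasFDerivAt (fun v => h (ψ.symm (θ v)))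
        ((fderiv ℂ (fun x => h (ψ.symm x)) (θ z)).comp (fderiv ℂ θ z)) z :=
      hF.differentiableAt.hasFDerivAt.comp z hθa.differentiableAt.hasFDerivAt
    rw [hev.fderiv_eq, h1.fderiv, ContinuousLinearMap.coe_comp] at hinj
    exact hinj.of_comp
  refine ⟨l, RankAt.congr hev.symm ?_⟩
  exact RankAt.comp (F := fun x => h (ψ.symm x)) (θ := θ) hF hθa hdet (by rw [hθz]; exact hl)

/-- **the dimension of the space of the everywhere tangent vectors** -/
theorem finrank_bs_of {Γ : Type} [Group Γ] [MulAction Γ E] [ContinuousConstSMul Γ E]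
    [PreconnectedSpace E] {c : Γ → V} (hI : IsImm d h) (hC : Cpt h c)
    {σ : (Fin d → ℂ) → E} {z : Fin d → ℂ} (hσ : ContinuousAt σ z)
    {g : (Fin d → ℂ) → V} (hg : AnalyticAt ℂ g z) (hgσ : g =ᶠ[𝓝 z] fun v => h (σ v))
    {r : ℕ} (hr : ∃ l, RankAt r g z l) (hmax : ∀ᶠ v in 𝓝 z, ∀ l, ¬ RankAt (r + 1) g v l) :
    Module.finrank ℂ (bs hI) + r = d := by
  obtain ⟨m, ψ, H, he⟩ := hI (σ z)
  set θ : (Fin d → ℂ) → (Fin d → ℂ) := fun v => m (g v) with hθ
  have hθa : AnalyticAt ℂ θ z := (m.analyticAt _).comp hg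
  have hθz : θ z = m (h (σ z)) := by
    rw [hθ]; simp only [hgσ.self_of_nhds]
  set F : (Fin d → ℂ) → V := fun x => h (ψ.symm x) with hF
  have hFa : AnalyticAt ℂ F (θ z) := by
    rw [hθz]; exact H.an _ (flat_mem H he)
  have hev : g =ᶠ[𝓝 z] fun v => F (θ v) := by
    filter_upwards [flat_param H he hσ rfl, hgσ] with v hv hv2
    rw [hF, hθ]
    simp only
    rw [hv2]
    exact hv.2
  obtain ⟨l, hl⟩ := hr
  obtain ⟨hdet, hl2⟩ := RankAt.of_comp hFa hθa (RankAt.congr hev hl)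
  have hle : r + Module.finrank ℂ (Nn h m (σ z)) ≤ d :=
    rank_add_le H he (by rw [← hθz]; exact hl2)
  -- the rank is at most `r` near `θ z`
  have hmap : Filter.map θ (𝓝 z) = 𝓝 (θ z) := by
    refine hθa.hasStrictFDerivAt.map_nhds_eq_of_surj ?_
    exact LinearMap.range_eq_top.2 (surj_of_det hdet)
  have hdc : ∀ᶠ v in 𝓝 z, (fderiv ℂ θ v).det ≠ 0 := by
    have h1 : ContinuousAt (fun v => (fderiv ℂ θ v).det) z :=
      ContinuousAt.comp (g := fun A : (Fin d → ℂ) →L[ℂ] (Fin d → ℂ) => A.det)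
        ContinuousLinearMap.continuous_det.continuousAt hθa.fderiv.continuousAt
    exact h1.eventually_ne hdet
  have hP : ∀ᶠ x in 𝓝 (θ z), ∀ l, ¬ RankAt (r + 1) F x l := by
    rw [← hmap, eventually_map]
    filter_upwards [hdc, minor_comp_ev hFa hθa, eventually_eventually_nhds.2 hev, hmax]
      with v h1 h2 h3 h4 l hl
    exact h4 l (RankAt.congr (Filter.EventuallyEq.symm h3) (RankAt.comp h2.1 h2.2 h1 hl))
  rw [hθz] at hP
  obtain ⟨N, hN, hNo, hzN⟩ := _root_.eventually_nhds_iff.1 hP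
  -- a generic point
  have heN : σ z ∈ ψ.source ∩ ψ ⁻¹' N := ⟨he, by
    show ψ (σ z) ∈ N
    rw [H.eq _ he]; exact hzN⟩
  have hneN : (ψ.source ∩ ψ ⁻¹' N).Nonempty := ⟨_, heN⟩
  obtain ⟨e₁, he₁, hmin⟩ := WellFounded.has_min
    (measure fun e => Module.finrank ℂ (Nn h m e)).wf (ψ.source ∩ ψ ⁻¹' N) hneN
  have hmin1 : ∀ᶠ e in 𝓝 e₁, Module.finrank ℂ (Nn h m e₁) ≤ Module.finrank ℂ (Nn h m e) := by
    filter_upwards [(ψ.isOpen_inter_preimage hNo).mem_nhds he₁] with e he'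
    exact not_lt.1 (hmin e he')
  have h1 : Module.finrank ℂ (Nn h m e₁) ≤ Module.finrank ℂ (Nn h m (σ z)) :=
    not_lt.1 (hmin _ heN)
  have h2 : ¬ (r + 1 + Module.finrank ℂ (Nn h m e₁) ≤ d) := by
    intro hcon
    obtain ⟨l', hl'⟩ := exists_rank H he₁.1 hcon
    refine hN (m (h e₁)) ?_ l' hl'
    have h3 : ψ e₁ ∈ N := he₁.2
    rwa [H.eq _ he₁.1] at h3
  rw [finrank_bs hI hC H he₁.1 hmin1]
  omega

end flat

end Vale.Agent.P281.H152.R
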