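import Vale.Agent.P281.H303.UD.Flow
import Vale.Agent.P281.H349.O.Gen
import Vale.Agent.P281.H152.R.Bas

/-!
# P281, T-UD, block R6 (helper152), part 5: families of immersed manifolds: charts, tangent vectors.
-/

open Set Filter Metric
open scoped Topology ContDiff

noncomputable section

namespace Vale.Agent.P281.H152.R

open Vale.Agent.P281.H64.TK (Fam)
open Vale.Agent.P281.H349.O (IsImm Tan bs Cpt flat_of mem_bs)
open Vale.Agent.P281.H303.UD (ImmF mem_ball3)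

variable {p d : ℕ} {E K : Type} [TopologicalSpace E] [Group K] [MulAction K E]
  {V : Type} [NormedAddCommGroup V] [NormedSpace ℂ V]

/-- `F t : E → V` is additive for `K`, and immersive. -/
structure Imm0 (𝓕 : Fam p d E K) (T' : Set (Cm p)) (F : Cm p → E → V) (c : Cm p → K → V) :
    Prop where
  sub : T' ⊆ 𝓕.T
  isOpen : IsOpen T'
  add : ∀ t ∈ T', ∀ κ e, F t (κ • e) = F t e + c t κ
  hol : ∀ i, ∀ t ∈ T', ∀ z ∈ ball (0 : Cm d) 3,
    AnalyticAt ℂ (fun q : Cm p × Cm d => F q.1 (𝓕.σ i q.1 q.2)) (t, z)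
  imm : ∀ i, ∀ t ∈ T', ∀ z ∈ ball (0 : Cm d) 3, ∀ ξ : Cm d,
    fderiv ℂ (fun q : Cm p × Cm d => F q.1 (𝓕.σ i q.1 q.2)) (t, z) (0, ξ) = 0 → ξ = 0

/-- the sheets as maps to `V` -/
def HF (𝓕 : Fam p d E K) (F : Cm p → E → V) (i : Fin 𝓕.N) (q : Cm p × Cm d) : V :=
  F q.1 (𝓕.σ i q.1 q.2)

theorem dH_eq {I : Type*} {H : I → Cm p × Cm d → V} {i : I} {t : Cm p} {z : Cm d}
    (h : AnalyticAt ℂ (H i) (t, z)) (ξ : Cm d) : dH H i t z ξ = fderiv ℂ (H i) (t, z) (0, ξ) := by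
  have h2 : HasFDerivAt (H i) (fderiv ℂ (H i) (t, z)) (t, z) := h.differentiableAt.hasFDerivAt
  have h3 : HasFDerivAt (fun z : Cm d => H i (t, z))
      ((fderiv ℂ (H i) (t, z)).comp (ContinuousLinearMap.inr ℂ (Cm p) (Cm d))) z :=
    h2.comp z (hasFDerivAt_prodMk_right t z)
  rw [dH, h3.fderiv]
  rfl

variable {𝓕 : Fam p d E K} {T' : Set (Cm p)} {F : Cm p → E → V} {c : Cm p → K → V}

theorem Imm0.mono (h : Imm0 𝓕 T' F c) {N : Set (Cm p)} (hN : N ⊆ T') (hNo : IsOpen N) :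
    Imm0 𝓕 N F c where
  sub := hN.trans h.sub
  isOpen := hNo
  add := fun t ht => h.add t (hN ht)
  hol := fun i t ht => h.hol i t (hN ht)
  imm := fun i t ht => h.imm i t (hN ht)

theorem Imm0.isFamH (h : Imm0 𝓕 T' F c) : IsFamH T' (HF 𝓕 F) where
  an := h.hol
  inj := by
    intro i t ht z hz
    rw [injective_iff_map_eq_zero]
    intro ξ hξ
    rw [dH_eq (h.hol i t ht z hz)] at hξ
    exact h.imm i t ht z hz ξ hξ

theorem Imm0.immF [T2Space E] [ContinuousConstSMul K E] {W : Type} [NormedAddCommGroup W]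
    [NormedSpace ℂ W] [FiniteDimensional ℂ W] [FiniteDimensional ℂ V] (h : Imm0 𝓕 T' F c)
    {J : Cm p → W →L[ℂ] V} (hJ : ∀ t ∈ T', AnalyticAt ℂ J t)
    (htan : ∀ t ∈ T', ∀ v, J t v ∈ Bt (HF 𝓕 F) t) : ImmF 𝓕 T' F c J where
  sub := h.sub
  isOpen := h.isOpen
  add := h.add
  hol := h.hol
  imm := h.imm
  holJ := hJ
  tan := by
    intro i t ht z hz v
    obtain ⟨ξ, hξ⟩ := htan t ht v i z hz
    rw [dH_eq (h.hol i t ht z hz)] at hξ
    exact ⟨ξ, hξ⟩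

theorem sigma_injOn (𝓕 : Fam p d E K) {t : Cm p} (ht : t ∈ 𝓕.T) (i : Fin 𝓕.N) :
    InjOn (𝓕.σ i t) (ball (0 : Cm d) 3) := fun z hz w hw h =>
  (𝓕.inj i t ht z hz w hw 1 (by rw [one_smul]; exact h)).2

theorem sigma_cont (𝓕 : Fam p d E K) {t : Cm p} (ht : t ∈ 𝓕.T) (i : Fin 𝓕.N) :
    ContinuousOn (𝓕.σ i t) (ball (0 : Cm d) 3) := fun z hz =>
  (show ContinuousAt (𝓕.σ i t) z from (𝓕.map_nhds' i t ht z hz).le).continuousWithinAt

theorem sigma_open (𝓕 : Fam p d E K) {t : Cm p} (ht : t ∈ 𝓕.T) (i : Fin 𝓕.N) {U : Set (Cm d)}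
    (hU : IsOpen U) (hUb : U ⊆ ball (0 : Cm d) 3) : IsOpen (𝓕.σ i t '' U) := by
  rw [isOpen_iff_mem_nhds]
  rintro _ ⟨z, hz, rfl⟩
  rw [← 𝓕.map_nhds' i t ht z (hUb hz)]
  exact image_mem_map (hU.mem_nhds hz)

/-- the sheets as open partial homeomorphisms -/
def shP (𝓕 : Fam p d E K) {t : Cm p} (ht : t ∈ 𝓕.T) (i : Fin 𝓕.N) :
    OpenPartialHomeomorph (Cm d) E :=
  OpenPartialHomeomorph.ofContinuousOpenRestrict
    ((sigma_injOn 𝓕 ht i).toPartialEquiv (𝓕.σ i t) (ball (0 : Cm d) 3)) (sigma_cont 𝓕 ht i)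
    (by
      intro U hU
      have h1 : (ball (0 : Cm d) 3).restrict (𝓕.σ i t) '' U =
          𝓕.σ i t '' (Subtype.val '' U) := by
        rw [image_image]
        rfl
      show IsOpen ((ball (0 : Cm d) 3).restrict (𝓕.σ i t) '' U)
      rw [h1]
      refine sigma_open 𝓕 ht i (isOpen_ball.isOpenMap_subtype_val U hU) ?_
      rintro _ ⟨z, -, rfl⟩
      exact z.2) isOpen_ball

theorem shP_coe (𝓕 : Fam p d E K) {t : Cm p} (ht : t ∈ 𝓕.T) (i : Fin 𝓕.N) :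
    (shP 𝓕 ht i : Cm d → E) = 𝓕.σ i t := rfl

theorem shP_source (𝓕 : Fam p d E K) {t : Cm p} (ht : t ∈ 𝓕.T) (i : Fin 𝓕.N) :
    (shP 𝓕 ht i).source = ball (0 : Cm d) 3 := rfl

/-- the charts of `E` -/
def shC [ContinuousConstSMul K E] (𝓕 : Fam p d E K) {t : Cm p} (ht : t ∈ 𝓕.T) (i : Fin 𝓕.N)
    (κ : K) : OpenPartialHomeomorph E (Cm d) :=
  ((shP 𝓕 ht i).transHomeomorph (Homeomorph.smul κ)).symm

theorem shC_symm [ContinuousConstSMul K E] (𝓕 : Fam p d E K) {t : Cm p} (ht : t ∈ 𝓕.T)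
    (i : Fin 𝓕.N) (κ : K) (z : Cm d) : (shC 𝓕 ht i κ).symm z = κ • 𝓕.σ i t z := rfl

theorem shC_target [ContinuousConstSMul K E] (𝓕 : Fam p d E K) {t : Cm p} (ht : t ∈ 𝓕.T)
    (i : Fin 𝓕.N) (κ : K) : (shC 𝓕 ht i κ).target = ball (0 : Cm d) 3 := rfl

section
variable [ContinuousConstSMul K E]

/-- `F t` in a chart -/
theorem Imm0.rep (h : Imm0 𝓕 T' F c) {t : Cm p} (ht : t ∈ T') (i : Fin 𝓕.N) (κ : K) :
    (fun x => F t ((shC 𝓕 (h.sub ht) i κ).symm x)) = fun z => HF 𝓕 F i (t, z) + c t κ := by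
  funext x
  rw [shC_symm, h.add t ht]
  rfl

theorem Imm0.slice_an (h : Imm0 𝓕 T' F c) {t : Cm p} (ht : t ∈ T') (i : Fin 𝓕.N) {z : Cm d}
    (hz : z ∈ ball (0 : Cm d) 3) : AnalyticAt ℂ (fun z => HF 𝓕 F i (t, z)) z :=
  AnalyticAt.fun_comp (g := HF 𝓕 F i) (f := fun z : Cm d => (t, z)) (h.hol i t ht z hz)
    (analyticAt_const.prod analyticAt_id)

variable [FiniteDimensional ℂ V]

/-- flat charts at a point of a sheet -/
theorem Imm0.exists_flat (h : Imm0 𝓕 T' F c) {t : Cm p} (ht : t ∈ T') (i : Fin 𝓕.N) (κ : K)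
    {z : Cm d} (hz : z ∈ ball (0 : Cm d) 3) :
    ∃ (m : V →L[ℂ] Cm d) (ψ : OpenPartialHomeomorph E (Cm d)), H349.O.Flat (F t) m ψ ∧
      κ • 𝓕.σ i t z ∈ ψ.source ∧ ∀ v, Tan (F t) (κ • 𝓕.σ i t z) v ↔
        ∃ ξ, dH (HF 𝓕 F) i t z ξ = v := by
  obtain ⟨m, hm⟩ := H303.UD.exists_left (A := dH (HF 𝓕 F) i t z) fun ξ hξ =>
    (injective_iff_map_eq_zero _).1 (h.isFamH.inj i t ht z hz) ξ hξ
  have hm' : ∀ ξ, m (dH (HF 𝓕 F) i t z ξ) = ξ := fun ξ => DFunLike.congr_fun hm ξ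
  set φ := shC 𝓕 (h.sub ht) i κ with hφ
  set e₀ : E := κ • 𝓕.σ i t z with he₀
  have hzt : z ∈ φ.target := hz
  have hsz : φ.symm z = e₀ := rfl
  have he₀s : e₀ ∈ φ.source := by rw [← hsz]; exact φ.map_target hzt
  have hφe : φ e₀ = z := by rw [← hsz]; exact φ.right_inv hzt
  have hrep := h.rep ht i κ
  have hd : fderiv ℂ (fun x => F t (φ.symm x)) z = dH (HF 𝓕 F) i t z := by
    rw [hφ, hrep, fderiv_add_const]
    rfl
  have han : ∀ x ∈ φ.target, AnalyticAt ℂ (fun x => F t (φ.symm x)) x := by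
    intro x hx
    rw [hφ, hrep]
    exact (h.slice_an ht i hx).add analyticAt_const
  obtain ⟨ψ, hψ, heψ⟩ := flat_of φ han he₀s m fun ξ hξ => by
    rw [hφe, hd, hm'] at hξ
    exact hξ
  refine ⟨m, ψ, hψ, heψ, fun v => ?_⟩
  rw [hψ.tan_iff heψ]
  -- the chain rule
  have hchain : ∀ ξ, fderiv ℂ (fun x => F t (ψ.symm x)) (ψ e₀) (m (dH (HF 𝓕 F) i t z ξ)) =
      dH (HF 𝓕 F) i t z ξ := by
    intro ξ
    have h1 : HasFDerivAt (fun x => F t (ψ.symm x)) (fderiv ℂ (fun x => F t (ψ.symm x)) (ψ e₀))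
        (ψ e₀) := (hψ.an _ (ψ.map_source heψ)).differentiableAt.hasFDerivAt
    have h2 : HasFDerivAt (fun x => F t (φ.symm x)) (dH (HF 𝓕 F) i t z) z := by
      rw [← hd]
      exact (han z hzt).differentiableAt.hasFDerivAt
    have h3 : HasFDerivAt (fun x => m (F t (φ.symm x))) (m.comp (dH (HF 𝓕 F) i t z)) z :=
      m.hasFDerivAt.comp z h2
    have h4 : m (F t (φ.symm z)) = ψ e₀ := by rw [hsz, hψ.eq e₀ heψ]
    have h5 : HasFDerivAt (fun x => F t (ψ.symm (m (F t (φ.symm x)))))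
        ((fderiv ℂ (fun x => F t (ψ.symm x)) (ψ e₀)).comp (m.comp (dH (HF 𝓕 F) i t z))) z := by
      have h6 : HasFDerivAt (fun x => F t (ψ.symm x)) (fderiv ℂ (fun x => F t (ψ.symm x)) (ψ e₀))
        (m (F t (φ.symm z))) := by rw [h4]; exact h1
      exact HasFDerivAt.comp (g := fun x => F t (ψ.symm x))
        (f := fun x => m (F t (φ.symm x))) z h6 h3
    have h7 : (fun x => F t (ψ.symm (m (F t (φ.symm x))))) =ᶠ[𝓝 z] fun x => F t (φ.symm x) := by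
      have h8 : ∀ᶠ x in 𝓝 z, φ.symm x ∈ ψ.source :=
        (φ.continuousAt_symm hzt).eventually (by rw [hsz]; exact ψ.open_source.mem_nhds heψ)
      filter_upwards [h8] with x hx
      rw [hψ.left hx]
    have h9 := h5.unique (h2.congr_of_eventuallyEq h7)
    exact DFunLike.congr_fun h9 ξ
  constructor
  · intro hv
    refine ⟨m v, ?_⟩
    rw [← hchain, hm', hv]
  · rintro ⟨ξ, rfl⟩
    exact hchain ξ

theorem Imm0.isImm (h : Imm0 𝓕 T' F c) {t : Cm p} (ht : t ∈ T') : IsImm d (F t) := by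
  intro e
  obtain ⟨κ, i, z, hz, rfl⟩ := 𝓕.cover t (h.sub ht) e
  obtain ⟨m, ψ, h1, h2, -⟩ := h.exists_flat ht i κ (mem_ball3 hz.le)
  exact ⟨m, ψ, h1, h2⟩

/-- the everywhere tangent vectors, in sheets -/
theorem Imm0.mem_bs (h : Imm0 𝓕 T' F c) {t : Cm p} (ht : t ∈ T') {v : V} :
    v ∈ bs (h.isImm ht) ↔ v ∈ Bt (HF 𝓕 F) t := by
  rw [H349.O.mem_bs]
  constructor
  · intro hv i z hz
    obtain ⟨m, ψ, -, -, h3⟩ := h.exists_flat ht i 1 hz
    exact (h3 v).1 (hv _)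
  · intro hv e
    obtain ⟨κ, i, z, hz, rfl⟩ := 𝓕.cover t (h.sub ht) e
    obtain ⟨m, ψ, -, -, h3⟩ := h.exists_flat ht i κ (mem_ball3 hz.le)
    exact (h3 v).2 (hv i z (mem_ball3 hz.le))

omit [FiniteDimensional ℂ V] in
theorem Imm0.cpt (h : Imm0 𝓕 T' F c) {t : Cm p} (ht : t ∈ T') : Cpt (F t) (c t) where
  add := h.add t ht
  cpt := by
    refine ⟨⋃ i : Fin 𝓕.N, 𝓕.σ i t '' closedBall (0 : Cm d) 1, ?_, ?_⟩
    · refine isCompact_iUnion fun i => (isCompact_closedBall _ _).image_of_continuousOn ?_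
      exact (sigma_cont 𝓕 (h.sub ht) i).mono fun z hz => mem_ball3 (by simpa using hz)
    · intro e
      obtain ⟨κ, i, z, hz, rfl⟩ := 𝓕.cover t (h.sub ht) e
      exact ⟨κ, 𝓕.σ i t z, mem_iUnion.2 ⟨i, z, by simpa using hz.le, rfl⟩, rfl⟩

end

end Vale.Agent.P281.H152.R
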