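import Vale.Agent.P281.H152.R.Fam

/-!
# P281, T-UD, block R6 (helper152), part 6: the lattice of the everywhere tangent vectors is constant.
-/

open Set Filter Metric
open scoped Topology ContDiff

noncomputable section

namespace Vale.Agent.P281.H152.R

open Vale.Agent.P281.H64.TK (Fam)
open Vale.Agent.P281.H349.O (IsImm Tan bs Cpt IsAct exists_action)
open Vale.Agent.P281.H303.UD (ImmF mem_ball3 flat_chart map_smul)
open Vale.Agent.P281.H303.UD.ImmF (Pth Pth.unique)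

variable {p d n : ℕ} {E K : Type} [TopologicalSpace E] [Group K] [MulAction K E]
  {V : Type} [NormedAddCommGroup V] [NormedSpace ℂ V]
  {𝓕 : Fam p d E K} {T' : Set (Cm p)} {F : Cm p → E → V} {c : Cm p → K → V}

/-- `κ` acts on `E` as the translation by its period. -/
def IsTr (h : E → V) (w : V) (κ : K) : Prop := ∀ e, Pth h w e (κ • e)

/-- the integral vectors of the periods of the translations by everywhere tangent vectors -/
def LamS (𝓕 : Fam p d E K) (F : Cm p → E → V) (c : Cm p → K → V)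
    (kk : K → (Fin n → ℤ)) (t : Cm p) : Set (Fin n → ℤ) :=
  {k | ∃ κ : K, kk κ = k ∧ c t κ ∈ Bt (HF 𝓕 F) t ∧ IsTr (F t) (c t κ) κ}

section
variable [T2Space E] [ContinuousConstSMul K E] [FiniteDimensional ℂ V]

theorem pth_act {h : E → V} {hI : IsImm d h} {c : K → V} {act : bs hI → E → E}
    (ha : IsAct hI c act) (l : bs hI) (e : E) : Pth h (l : V) e (act l e) := by
  refine ⟨fun s => act ((s : ℂ) • l) e, ?_, ?_, ?_, ?_⟩
  · refine Continuous.continuousOn ?_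
    exact ha.cont.comp (by fun_prop : Continuous fun s : ℝ => (((s : ℂ) • l, e) : bs hI × E))
  · simp only [Complex.ofReal_zero, zero_smul, ha.zero]
  · simp only [Complex.ofReal_one, one_smul]
  · intro s _
    simp only [ha.lift]
    rfl

theorem isTr_iff {h : E → V} {hI : IsImm d h} {c : K → V} {act : bs hI → E → E}
    (ha : IsAct hI c act) {κ : K} {w : V} (hw : w ∈ bs hI) :
    IsTr h w κ ↔ ∀ e, act ⟨w, hw⟩ e = κ • e := by
  constructor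
  · intro H e
    exact (pth_act ha ⟨w, hw⟩ e).unique hI.locallyInjective (H e)
  · intro H e
    rw [← H e]
    exact pth_act ha ⟨w, hw⟩ e

/-- the translations by everywhere tangent vectors form a subgroup -/
theorem Imm0.exists_sub (h : Imm0 𝓕 T' F c) {kk : K → (Fin n → ℤ)}
    (hkk : ∀ a b, kk (a * b) = kk a + kk b) {t : Cm p} (ht : t ∈ T') (hc1 : c t 1 = 0)
    (hcm : ∀ a b, c t (a * b) = c t a + c t b) :
    ∃ Λ : AddSubgroup (Fin n → ℤ), (Λ : Set (Fin n → ℤ)) = LamS 𝓕 F c kk t := by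
  obtain ⟨act, a1, a2, a3, a4, a5⟩ := exists_action (h.isImm ht) (h.cpt ht)
  have ha : IsAct (h.isImm ht) (c t) act := ⟨a1, a2, a3, a4, a5⟩
  have hbs : ∀ {v : V}, v ∈ bs (h.isImm ht) ↔ v ∈ Bt (HF 𝓕 F) t := h.mem_bs ht
  have hkk1 : kk 1 = 0 := by
    have := hkk 1 1
    rw [mul_one] at this
    exact left_eq_add.1 this
  have hci : ∀ a, c t a⁻¹ = -c t a := by
    intro a
    have := hcm a⁻¹ a
    rw [inv_mul_cancel, hc1] at this
    exact eq_neg_of_add_eq_zero_left this.symm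
  have hki : ∀ a, kk a⁻¹ = -kk a := by
    intro a
    have := hkk a⁻¹ a
    rw [inv_mul_cancel, hkk1] at this
    exact eq_neg_of_add_eq_zero_left this.symm
  refine ⟨{ carrier := LamS 𝓕 F c kk t, zero_mem' := ?_, add_mem' := ?_, neg_mem' := ?_ }, rfl⟩
  · rintro _ _ ⟨κ, rfl, hκ, hκt⟩ ⟨κ', rfl, hκ', hκt'⟩
    have b1 : c t (κ * κ') ∈ Bt (HF 𝓕 F) t := by
      rw [hcm]; exact Submodule.add_mem _ hκ hκ'
    refine ⟨κ * κ', hkk _ _, b1, ?_⟩
    rw [isTr_iff ha (hbs.2 b1)]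
    rw [isTr_iff ha (hbs.2 hκ)] at hκt
    rw [isTr_iff ha (hbs.2 hκ')] at hκt'
    intro e
    have b2 : (⟨c t (κ * κ'), hbs.2 b1⟩ : bs (h.isImm ht)) =
        ⟨c t κ, hbs.2 hκ⟩ + ⟨c t κ', hbs.2 hκ'⟩ := Subtype.ext (hcm _ _)
    rw [b2, ha.add, hκt', hκt, mul_smul]
  · refine ⟨1, hkk1, ?_, ?_⟩
    · rw [hc1]; exact Submodule.zero_mem _
    · have b1 : c t 1 ∈ bs (h.isImm ht) := by rw [hc1]; exact Submodule.zero_mem _
      rw [isTr_iff ha b1]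
      intro e
      have b2 : (⟨c t 1, b1⟩ : bs (h.isImm ht)) = 0 := Subtype.ext hc1
      rw [b2, ha.zero, one_smul]
  · rintro _ ⟨κ, rfl, hκ, hκt⟩
    have b1 : c t κ⁻¹ ∈ Bt (HF 𝓕 F) t := by
      rw [hci]; exact Submodule.neg_mem _ hκ
    refine ⟨κ⁻¹, hki _, b1, ?_⟩
    rw [isTr_iff ha (hbs.2 b1)]
    rw [isTr_iff ha (hbs.2 hκ)] at hκt
    intro e
    have b2 : (⟨c t κ⁻¹, hbs.2 b1⟩ : bs (h.isImm ht)) = -⟨c t κ, hbs.2 hκ⟩ :=
      Subtype.ext (hci _)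
    have b3 : e = act ⟨c t κ, hbs.2 hκ⟩ (κ⁻¹ • e) := by
      rw [hκt, smul_inv_smul]
    rw [b2]
    conv_lhs => rw [b3]
    exact ha.neg _ _

/-- finitely many translations span the everywhere tangent vectors -/
theorem Imm0.exists_span [ConnectedSpace E] (h : Imm0 𝓕 T' F c) {kk : K → (Fin n → ℤ)}
    {t : Cm p} (ht : t ∈ T') {P : (Fin n → ℝ) ≃L[ℝ] V} (hP : ∀ κ, c t κ = P (zr (kk κ))) :
    ∃ s : Finset (Fin n → ℤ), (s : Set (Fin n → ℤ)) ⊆ LamS 𝓕 F c kk t ∧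
      (Bt (HF 𝓕 F) t).restrictScalars ℝ =
        Submodule.span ℝ ((fun k => P (zr k)) '' (s : Set (Fin n → ℤ))) := by
  obtain ⟨act, a1, a2, a3, a4, a5⟩ := exists_action (h.isImm ht) (h.cpt ht)
  have ha : IsAct (h.isImm ht) (c t) act := ⟨a1, a2, a3, a4, a5⟩
  have hbs : ∀ {v : V}, v ∈ bs (h.isImm ht) ↔ v ∈ Bt (HF 𝓕 F) t := h.mem_bs ht
  obtain ⟨R, hR⟩ := H349.O.lattice (h.cpt ht) ha
  refine exists_finset (Λ := LamS 𝓕 F c kk t) (R := R) ?_ ?_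
  · rintro _ ⟨κ, rfl, hκ, -⟩
    rw [← hP]; exact hκ
  · intro v hv
    obtain ⟨l, ⟨κ, hκ⟩, hl⟩ := hR ⟨v, hbs.2 hv⟩
    obtain ⟨e₀⟩ : Nonempty E := inferInstance
    have h1 : (l : V) = c t κ := by
      have h2 := ha.lift l e₀
      rw [hκ, h.add t ht] at h2
      exact (add_left_cancel h2).symm
    have h3 : c t κ ∈ bs (h.isImm ht) := by rw [← h1]; exact l.2
    refine ⟨kk κ, ⟨κ, rfl, hbs.1 h3, ?_⟩, ?_⟩
    · rw [isTr_iff ha h3]
      intro e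
      rw [← hκ e]
      congr 1
      exact Subtype.ext h1.symm
    · rw [← hP, ← h1]
      exact hl

/-- two continuous families of points with the same images which agree somewhere -/
theorem Imm0.unique (h : Imm0 𝓕 T' F c) {N : Set (Cm p)} (hNo : IsOpen N) (hNc : IsPreconnected N)
    (hN : N ⊆ T') {a : Cm p → E} (ha : ∀ t ∈ N, ContinuousAt a t) {e₁ : E}
    (hF : ∀ t ∈ N, F t (a t) = F t e₁) {t₀ : Cm p} (ht₀ : t₀ ∈ N) (h0 : a t₀ = e₁) :
    ∀ t ∈ N, a t = e₁ := by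
  let A : Set (Cm p) := {t | ∀ᶠ s in 𝓝 t, a s = e₁}
  have hAo : IsOpen A := by
    rw [isOpen_iff_mem_nhds]
    exact fun t ht => eventually_eventually_nhds.2 ht
  have key : ∀ t₁ ∈ N, a t₁ = e₁ → t₁ ∈ A := by
    intro t₁ ht₁ hat
    obtain ⟨κ, i, z₁, hz, he₁⟩ := 𝓕.cover t₁ (h.sub (hN ht₁)) e₁
    have hz3 := mem_ball3 hz.le
    obtain ⟨m, Φ, -, hΦ⟩ := flat_chart (h.hol i t₁ (hN ht₁) z₁ hz3)
      (h.imm i t₁ (hN ht₁) z₁ hz3)
    have h1 : ∀ᶠ q : Cm p × E in 𝓝 (t₁, e₁), ∃ z, q.2 = κ • 𝓕.σ i q.1 z ∧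
        Φ (q.1, m (F q.1 (𝓕.σ i q.1 z))) = z := by
      rw [← he₁, ← map_smul κ i (h.sub (hN ht₁)) hz3, eventually_map]
      filter_upwards [hΦ] with q hq using ⟨q.2, rfl, hq⟩
    have h2 : Tendsto (fun s => (s, a s)) (𝓝 t₁) (𝓝 (t₁, e₁)) := by
      have h3 : Tendsto a (𝓝 t₁) (𝓝 e₁) := by
        have := (ha t₁ ht₁).tendsto
        rwa [hat] at this
      exact tendsto_id.prodMk_nhds h3
    have h3 : Tendsto (fun s => (s, e₁)) (𝓝 t₁) (𝓝 (t₁, e₁)) :=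
      tendsto_id.prodMk_nhds tendsto_const_nhds
    show ∀ᶠ s in 𝓝 t₁, a s = e₁
    filter_upwards [h2.eventually h1, h3.eventually h1, hNo.mem_nhds ht₁] with s h4 h5 hs
    obtain ⟨z, hz1, hz2⟩ := h4
    obtain ⟨z', hz1', hz2'⟩ := h5
    have hz1 : a s = κ • 𝓕.σ i s z := hz1
    have hz1' : e₁ = κ • 𝓕.σ i s z' := hz1'
    have hz2 : Φ (s, m (F s (𝓕.σ i s z))) = z := hz2
    have hz2' : Φ (s, m (F s (𝓕.σ i s z'))) = z' := hz2'
    have h6 := hF s hs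
    rw [hz1, hz1', h.add s (hN hs), h.add s (hN hs)] at h6
    have h7 : z = z' := by rw [← hz2, add_right_cancel h6, hz2']
    rw [hz1, h7, ← hz1']
  have h1 : N ⊆ A := by
    refine hNc.subset_of_closure_inter_subset hAo ⟨t₀, ht₀, key t₀ ht₀ h0⟩ ?_
    rintro t₁ ⟨ht₁, ht₁N⟩
    refine key t₁ ht₁N ?_
    have h2 : ∃ᶠ s in 𝓝 t₁, a s = e₁ :=
      (mem_closure_iff_frequently.1 ht₁).mono fun s hs =>
        (show ∀ᶠ s' in 𝓝 s, a s' = e₁ from hs).self_of_nhds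
    exact isClosed_singleton.mem_of_frequently_of_tendsto h2 (ha t₁ ht₁N).tendsto
  intro t ht
  exact (show ∀ᶠ s in 𝓝 t, a s = e₁ from h1 ht).self_of_nhds

/-- **the translations are locally independent of `t`** -/
theorem Imm0.isTr_loc {b : ℕ} (h : Imm0 𝓕 T' F c) (hcont : ∀ κ, ContinuousOn (fun t => c t κ) T')
    {π : Cm p → ((Fin n → ℝ) ≃L[ℝ] V)} (hπ : ∀ x, ∀ t ∈ T', AnalyticAt ℂ (fun s => π s x) t)
    {R₀ : Submodule ℝ (Fin n → ℝ)} (hR : ∀ t ∈ T', ∀ x, π t x ∈ Bt (HF 𝓕 F) t ↔ x ∈ R₀)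
    (hb : ∀ t ∈ T', Module.finrank ℂ (Bt (HF 𝓕 F) t) = b) {t₀ : Cm p} (ht₀ : t₀ ∈ T') {κ : K}
    (hκ : ∀ t ∈ T', c t κ ∈ Bt (HF 𝓕 F) t) :
    ∃ N ∈ 𝓝 t₀, N ⊆ T' ∧ ∀ t ∈ N, ∀ t' ∈ N, IsTr (F t) (c t κ) κ → IsTr (F t') (c t' κ) κ := by
  obtain ⟨x, m, N, hx, hNo, ht₀N, hNT, hN⟩ := exists_j h.isOpen hπ hR hb ht₀
  obtain ⟨ε, hε, hball⟩ := Metric.isOpen_iff.1 hNo t₀ ht₀N
  set N' := ball t₀ ε with hN'
  have hN'T : N' ⊆ T' := hball.trans hNT
  have h' := h.mono hN'T isOpen_ball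
  have hIF : ImmF 𝓕 N' F c (jm π x) := h'.immF (fun t ht => jm_an fun x => hπ x t (hN'T ht))
    fun t ht v => ((hN t (hball ht)).2 _).2 ⟨v, rfl⟩
  obtain ⟨act, b1, b2, b3, b4⟩ := hIF.exists_flow
  let w : Cm p → Vd b := fun t => cj π x m t (c t κ)
  have hw : ∀ t ∈ N', jm π x t (w t) = c t κ := by
    intro t ht
    obtain ⟨ξ, hξ⟩ := ((hN t (hball ht)).2 _).1 (hκ t (hN'T ht))
    show jm π x t (cj π x m t (c t κ)) = _
    rw [← hξ, cj_jm (hN t (hball ht)).1]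
  have hwc : ∀ t ∈ N', ContinuousAt w t := by
    intro t ht
    have c1 : ContinuousAt (cj π x m) t :=
      (cj_an (fun x => hπ x t (hN'T ht)) (hN t (hball ht)).1).continuousAt
    have c2 : ContinuousAt (fun t => c t κ) t :=
      (hcont κ).continuousAt (h.isOpen.mem_nhds (hN'T ht))
    exact c1.clm_apply c2
  -- the translation in terms of the flow
  have htr : ∀ t ∈ N', IsTr (F t) (c t κ) κ ↔ ∀ e, act (w t, (t, e)) = κ • e := by
    intro t ht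
    have hp : ∀ e, Pth (F t) (c t κ) e (act (w t, (t, e))) := by
      intro e
      refine ⟨fun s => act ((s : ℂ) • w t, (t, e)), ?_, ?_, ?_, ?_⟩
      · intro s _
        have h4 : ContinuousAt (fun s : ℝ => (((s : ℂ) • w t, (t, e)) : Vd b × (Cm p × E))) s := by
          fun_prop
        exact (ContinuousAt.comp (g := act)
          (f := fun s : ℝ => (((s : ℂ) • w t, (t, e)) : Vd b × (Cm p × E)))
          (b4 t ht ((s : ℂ) • w t) e) h4).continuousWithinAt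
      · simp only [Complex.ofReal_zero, zero_smul, b1 t ht]
      · simp only [Complex.ofReal_one, one_smul]
      · intro s _
        simp only [b2 t ht, _root_.map_smul, hw t ht]
    constructor
    · exact fun H e => (hp e).unique (h.isImm (hN'T ht)).locallyInjective (H e)
    · intro H e
      rw [← H e]
      exact hp e
  refine ⟨N', ball_mem_nhds t₀ hε, hN'T, fun t ht t' ht' hT => ?_⟩
  rw [htr t ht] at hT
  rw [htr t' ht']
  intro e
  refine h.unique isOpen_ball (convex_ball t₀ ε).isPreconnected hN'T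
    (a := fun t => act (w t, (t, e))) ?_ ?_ ht (hT e) t' ht'
  · intro s hs
    exact ContinuousAt.comp (g := act) (f := fun t => (w t, (t, e))) (b4 s hs _ _)
      ((hwc s hs).prodMk (continuousAt_id.prodMk continuousAt_const))
  · intro s hs
    rw [b2 s hs, hw s hs, h.add s (hN'T hs)]

/-- **the translations are independent of `t`** -/
theorem Imm0.isTr_const {b : ℕ} (h : Imm0 𝓕 T' F c) (hTc : IsPreconnected T')
    (hcont : ∀ κ, ContinuousOn (fun t => c t κ) T')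
    {π : Cm p → ((Fin n → ℝ) ≃L[ℝ] V)} (hπ : ∀ x, ∀ t ∈ T', AnalyticAt ℂ (fun s => π s x) t)
    {R₀ : Submodule ℝ (Fin n → ℝ)} (hR : ∀ t ∈ T', ∀ x, π t x ∈ Bt (HF 𝓕 F) t ↔ x ∈ R₀)
    (hb : ∀ t ∈ T', Module.finrank ℂ (Bt (HF 𝓕 F) t) = b) {κ : K}
    (hκ : ∀ t ∈ T', c t κ ∈ Bt (HF 𝓕 F) t) {t₀ : Cm p} (ht₀ : t₀ ∈ T')
    (h0 : IsTr (F t₀) (c t₀ κ) κ) : ∀ t ∈ T', IsTr (F t) (c t κ) κ := by
  let A : Set (Cm p) := {t | ∀ᶠ s in 𝓝 t, IsTr (F s) (c s κ) κ}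
  have hAo : IsOpen A := by
    rw [isOpen_iff_mem_nhds]
    exact fun t ht => eventually_eventually_nhds.2 ht
  have h1 : T' ⊆ A := by
    refine hTc.subset_of_closure_inter_subset hAo ⟨t₀, ht₀, ?_⟩ ?_
    · obtain ⟨N, hN, -, hN2⟩ := h.isTr_loc hcont hπ hR hb ht₀ hκ
      show ∀ᶠ s in 𝓝 t₀, IsTr (F s) (c s κ) κ
      filter_upwards [hN] with s hs using hN2 _ (mem_of_mem_nhds hN) _ hs h0
    · rintro t₁ ⟨ht₁, ht₁T⟩
      obtain ⟨N, hN, -, hN2⟩ := h.isTr_loc hcont hπ hR hb ht₁T hκ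
      obtain ⟨t₂, ht₂N, ht₂A⟩ := mem_closure_iff_nhds.1 ht₁ N hN
      have h2 : IsTr (F t₂) (c t₂ κ) κ :=
        (show ∀ᶠ s in 𝓝 t₂, IsTr (F s) (c s κ) κ from ht₂A).self_of_nhds
      show ∀ᶠ s in 𝓝 t₁, IsTr (F s) (c s κ) κ
      filter_upwards [hN] with s hs using hN2 _ ht₂N _ hs h2
  intro t ht
  exact (show ∀ᶠ s in 𝓝 t, IsTr (F s) (c s κ) κ from h1 ht).self_of_nhds

/-- **Block R6**: the everywhere tangent vectors and their lattice are constant in a family. -/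
theorem Imm0.exists_Lam [ConnectedSpace E] {b : ℕ} (h : Imm0 𝓕 T' F c) (hTc : IsPreconnected T')
    (hTn : T'.Nonempty) {kk : K → (Fin n → ℤ)} (hkk : ∀ a b, kk (a * b) = kk a + kk b)
    {π : Cm p → ((Fin n → ℝ) ≃L[ℝ] V)} (hπ : ∀ x, ∀ t ∈ T', AnalyticAt ℂ (fun s => π s x) t)
    (hc : ∀ t ∈ T', ∀ κ, c t κ = π t (zr (kk κ)))
    (hb : ∀ t ∈ T', Module.finrank ℂ (Bt (HF 𝓕 F) t) = b) :
    ∃ Λ : AddSubgroup (Fin n → ℤ),
      Module.finrank ℝ (Submodule.span ℝ (zr '' (Λ : Set (Fin n → ℤ)))) = 2 * b ∧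
      (∀ t ∈ T', ∀ x, π t x ∈ Bt (HF 𝓕 F) t ↔
        x ∈ Submodule.span ℝ (zr '' (Λ : Set (Fin n → ℤ)))) ∧
      ∀ t ∈ T', (Λ : Set (Fin n → ℤ)) = LamS 𝓕 F c kk t := by
  obtain ⟨s, hs1, hs2⟩ := exists_R0 h.isOpen hTc hTn h.isFamH hπ hb fun t ht => by
    obtain ⟨s, -, hs⟩ := h.exists_span ht (hc t ht)
    exact ⟨s, hs⟩
  set R₀ := Submodule.span ℝ (zr '' (s : Set (Fin n → ℤ))) with hR₀
  have hkk1 : kk 1 = 0 := by
    have := hkk 1 1
    rw [mul_one] at this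
    exact left_eq_add.1 this
  have hcont : ∀ κ, ContinuousOn (fun t => c t κ) T' := by
    intro κ t ht
    refine ContinuousAt.continuousWithinAt ?_
    refine (hπ (zr (kk κ)) t ht).continuousAt.congr ?_
    filter_upwards [h.isOpen.mem_nhds ht] with s' hs'
    rw [hc s' hs']
  have hconst : ∀ t ∈ T', ∀ t' ∈ T', LamS 𝓕 F c kk t ⊆ LamS 𝓕 F c kk t' := by
    rintro t ht t' ht' _ ⟨κ, rfl, hκ, hκt⟩
    have h1 : zr (kk κ) ∈ R₀ := (hs2 t ht _).1 (by rw [← hc t ht]; exact hκ)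
    have h2 : ∀ t ∈ T', c t κ ∈ Bt (HF 𝓕 F) t := fun t ht => by
      rw [hc t ht]; exact (hs2 t ht _).2 h1
    exact ⟨κ, rfl, h2 t' ht', h.isTr_const hTc hcont hπ hs2 hb h2 ht hκt t' ht'⟩
  obtain ⟨t₀, ht₀⟩ := hTn
  obtain ⟨Λ, hΛ⟩ := h.exists_sub hkk ht₀ (by rw [hc t₀ ht₀, hkk1, zr_zero, map_zero])
    fun a b => by rw [hc t₀ ht₀, hc t₀ ht₀, hc t₀ ht₀, hkk, zr_add, map_add]
  have hspan : Submodule.span ℝ (zr '' (Λ : Set (Fin n → ℤ))) = R₀ := by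
    refine le_antisymm ?_ ?_
    · rw [Submodule.span_le]
      rintro _ ⟨k, hk, rfl⟩
      rw [hΛ] at hk
      obtain ⟨κ, rfl, hκ, -⟩ := hk
      exact (hs2 t₀ ht₀ _).1 (by rw [← hc t₀ ht₀]; exact hκ)
    · obtain ⟨s', hs', hs'2⟩ := h.exists_span ht₀ (hc t₀ ht₀)
      intro x hx
      have h1 : π t₀ x ∈ (Bt (HF 𝓕 F) t₀).restrictScalars ℝ := (hs2 t₀ ht₀ x).2 hx
      rw [hs'2] at h1
      have h2 : Submodule.span ℝ ((fun k => π t₀ (zr k)) '' (s' : Set (Fin n → ℤ))) =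
          (Submodule.span ℝ (zr '' (s' : Set (Fin n → ℤ)))).map
            ((π t₀ : (Fin n → ℝ) →L[ℝ] V) : (Fin n → ℝ) →ₗ[ℝ] V) := by
        rw [Submodule.map_span, ← image_comp]
        rfl
      rw [h2] at h1
      obtain ⟨x', hx', hxx⟩ := h1
      have h3 : x' = x := (π t₀).injective hxx
      rw [h3] at hx'
      refine Submodule.span_mono (image_mono ?_) hx'
      rw [hΛ]
      exact hs'
  refine ⟨Λ, ?_, ?_, ?_⟩
  · rw [hspan, hs1]
  · intro t ht x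
    rw [hspan]
    exact hs2 t ht x
  · intro t ht
    rw [hΛ]
    exact subset_antisymm (hconst t₀ ht₀ t ht) (hconst t ht t₀ ht₀)

end

end Vale.Agent.P281.H152.R
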