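import Vale.Agent.P281.H152.R.Rat

/-!
# P281, T-UD, block R6 (helper152), part 3: lattice bases.
-/

open Set Filter Metric
open scoped Topology ContDiff

noncomputable section

namespace Vale.Agent.P281.H152.R

variable {n : ℕ}

theorem zr_add (k l : Fin n → ℤ) : zr (k + l) = zr k + zr l := by
  funext i; simp [zr]

theorem zr_zero : zr (0 : Fin n → ℤ) = 0 := by
  funext i; simp [zr]

theorem zr_neg (k : Fin n → ℤ) : zr (-k) = -zr k := by
  funext i; simp [zr]

theorem zr_inj {k l : Fin n → ℤ} (h : zr k = zr l) : k = l := by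
  funext i
  have h1 : ((k i : ℤ) : ℝ) = (l i : ℤ) := congrFun h i
  exact_mod_cast h1

/-- `zr` as a homomorphism -/
def zrH (n : ℕ) : (Fin n → ℤ) →+ (Fin n → ℝ) where
  toFun := zr
  map_zero' := zr_zero
  map_add' := zr_add

theorem zrH_apply (k : Fin n → ℤ) : zrH n k = zr k := rfl

theorem zr_dist {k l : Fin n → ℤ} (h : k ≠ l) : 1 ≤ dist (zr k) (zr l) := by
  obtain ⟨i, hi⟩ : ∃ i, k i ≠ l i := by
    by_contra hcon
    push Not at hcon
    exact h (funext hcon)
  refine le_trans ?_ (dist_le_pi_dist (zr k) (zr l) i)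
  show (1 : ℝ) ≤ dist ((k i : ℤ) : ℝ) ((l i : ℤ) : ℝ)
  rw [Int.dist_cast_real, Int.dist_eq]
  have h1 : 1 ≤ |k i - l i| := Int.one_le_abs (sub_ne_zero.2 hi)
  exact_mod_cast h1

/-- The subgroups of `ℤ ^ n` have bases, which are linearly independent over `ℝ`. -/
theorem exists_lat (Λ : AddSubgroup (Fin n → ℤ)) {nb : ℕ}
    (hnb : Module.finrank ℝ (Submodule.span ℝ (zr '' (Λ : Set (Fin n → ℤ)))) = nb) :
    ∃ lam : Fin nb → (Fin n → ℤ), (∀ i, lam i ∈ Λ) ∧ LinearIndependent ℝ (fun i => zr (lam i)) ∧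
      Submodule.span ℝ (range fun i => zr (lam i)) =
        Submodule.span ℝ (zr '' (Λ : Set (Fin n → ℤ))) ∧
      ∀ k, k ∈ Λ ↔ ∃ c : Fin nb → ℤ, k = ∑ i, c i • lam i := by
  classical
  set F : Submodule ℝ (Fin n → ℝ) := Submodule.span ℝ (zr '' (Λ : Set (Fin n → ℤ))) with hF
  have hzF : ∀ k ∈ Λ, zr k ∈ F := fun k hk => Submodule.subset_span ⟨k, hk, rfl⟩
  let L : Submodule ℤ F := AddSubgroup.toIntSubmodule
    ((Λ.map (zrH n)).comap F.subtype.toAddMonoidHom)
  have hL : ∀ x : F, x ∈ L ↔ ∃ k ∈ Λ, zr k = x := fun x => Iff.rfl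
  have : DiscreteTopology L := by
    refine DiscreteTopology.of_forall_le_dist (r := 1) one_pos ?_
    intro x y hxy
    obtain ⟨k, hk, hkx⟩ := (hL x.1).1 x.2
    obtain ⟨l, hl, hly⟩ := (hL y.1).1 y.2
    have h1 : k ≠ l := by
      rintro rfl
      apply hxy
      apply Subtype.ext
      apply Subtype.ext
      rw [← hkx, ← hly]
    have h2 := zr_dist h1
    rw [hkx, hly] at h2
    exact h2
  have hspan : Submodule.span ℝ (L : Set F) = ⊤ := by
    have h1 : (Submodule.span ℝ (L : Set F)).map F.subtype = F := by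
      rw [Submodule.map_span]
      refine le_antisymm ?_ ?_
      · rw [Submodule.span_le]
        rintro _ ⟨x, -, rfl⟩
        exact x.2
      · have h2 : Submodule.span ℝ (zr '' (Λ : Set (Fin n → ℤ))) ≤
            Submodule.span ℝ (F.subtype '' (L : Set F)) := by
          rw [Submodule.span_le]
          rintro _ ⟨k, hk, rfl⟩
          exact Submodule.subset_span ⟨⟨zr k, hzF k hk⟩, (hL _).2 ⟨k, hk, rfl⟩, rfl⟩
        exact h2
    rw [eq_top_iff]
    intro x _
    have h2 : (x : Fin n → ℝ) ∈ (Submodule.span ℝ (L : Set F)).map F.subtype := by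
      rw [h1]; exact x.2
    obtain ⟨x', hx', hxx⟩ := h2
    have h3 : x' = x := Subtype.ext hxx
    rwa [← h3]
  have : IsZLattice ℝ L := ⟨hspan⟩
  have : Module.Free ℤ L := ZLattice.module_free ℝ L
  have : Module.Finite ℤ L := ZLattice.module_finite ℝ L
  have hrk : Module.finrank ℤ L = nb := by rw [ZLattice.rank ℝ L, hnb]
  let b : Module.Basis (Fin nb) ℤ L := Module.finBasisOfFinrankEq ℤ L hrk
  choose lam hlam hlamb using fun i => (hL (b i).1).1 (b i).2
  let b' : Module.Basis (Fin nb) ℝ F := b.ofZLatticeBasis ℝ L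
  have hb' : ∀ i, ((b' i : F) : Fin n → ℝ) = zr (lam i) := by
    intro i
    rw [hlamb i]
    show ((b.ofZLatticeBasis ℝ L i : F) : Fin n → ℝ) = _
    rw [Module.Basis.ofZLatticeBasis_apply]
  have hfun : (fun i => zr (lam i)) = fun i => F.subtype (b' i) := by
    funext i
    exact (hb' i).symm
  refine ⟨lam, hlam, ?_, ?_, ?_⟩
  · rw [hfun]
    exact b'.linearIndependent.map' F.subtype (Submodule.ker_subtype F)
  · rw [hfun]
    have h1 : (range fun i => F.subtype (b' i)) = F.subtype '' range b' := by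
      rw [← range_comp]
      rfl
    rw [h1, ← Submodule.map_span, b'.span_eq, Submodule.map_subtype_top]
  · intro k
    constructor
    · intro hk
      let x : L := ⟨⟨zr k, hzF k hk⟩, (hL _).2 ⟨k, hk, rfl⟩⟩
      refine ⟨fun i => b.repr x i, zr_inj ?_⟩
      have h1 := b.sum_repr x
      have h2 := congrArg (fun y : L => ((y : F) : Fin n → ℝ)) h1
      have h3 : zr k = ((x : F) : Fin n → ℝ) := rfl
      rw [h3, ← h2, ← zrH_apply, map_sum]
      have h4 : ∀ s : Finset (Fin nb), (((∑ i ∈ s, b.repr x i • b i : L) : F) : Fin n → ℝ) =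
          ∑ i ∈ s, (zrH n) (b.repr x i • lam i) := by
        intro s
        rw [AddSubmonoidClass.coe_finsetSum, AddSubmonoidClass.coe_finsetSum]
        refine Finset.sum_congr rfl fun i _ => ?_
        rw [map_zsmul, zrH_apply, hlamb i]
        rfl
      exact h4 _
    · rintro ⟨c, rfl⟩
      exact AddSubgroup.sum_mem _ fun i _ => AddSubgroup.zsmul_mem _ (hlam i) _

end Vale.Agent.P281.H152.R
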