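import Vale.Agent.P281.H152.R.Loc
import Vale.Agent.P281.H511.UD.Lin

/-!
# P281, T-UD, block R6 (helper152), part 9: the linear part of the family of orbits, for local data.
-/

open Set Filter Metric MeasureTheory Vale.Agent.P281 Vale.Agent.P281.H713 Vale.Agent.P272.K
open scoped Topology ContDiff Manifold ComplexConjugate NNReal

noncomputable section

namespace Vale.Agent.P281.H152.R

open Vale.Agent.P281.H64 (Mark Qf)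
open Vale.Agent.P281.H64.TK Vale.Agent.P281.H603.K Vale.Agent.P281.H864.K
open Vale.Agent.P281.H603.TE
open Vale.Agent.P281.H349.O (IsImm Tan bs Cpt Flat)
open Vale.Agent.P281.H303.UD (FL cL HL ImL NL IsCmp FL_add exists_cmp)
open Vale.Agent.P281.H511.UD (IsChg IsLin exists_lin)

attribute [local instance] ccs

variable {p d : ℕ} {Z Y : Type} [TopologicalSpace Z] [T2Space Z] [ChartedSpace (Cm (p + d)) Z]
  [IsManifold 𝓘(ℂ, Cm (p + d)) ω Z] [TopologicalSpace Y] [T2Space Y] [ChartedSpace (Cm p) Y]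
  [IsManifold 𝓘(ℂ, Cm p) ω Y] {f : Z → Y}
  {w : Chart (p + d) Z → Cm (p + d) → Matrix (Fin (p + d)) (Fin (p + d)) ℂ} {m n g : ℕ}
  {B : Matrix (Fin n) (Fin n) ℝ}

/-- **(a3)** the change maps respect the lattices of the everywhere tangent vectors -/
theorem isChg_of_cmp (hF2 : F2Stmt) (hd : 0 < d) (hn : n = 2 * g)
    {L L' : DLocE (p := p) (d := d) f w m B g}
    {D D' : (Fin n → ℝ) ≃L[ℝ] EuclideanSpace ℂ (Fin g)} {y : Y} {τ : L.E ≃ₜ L'.E}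
    {ρ : L.Γ ≃* L'.Γ} {G : EuclideanSpace ℂ (Fin g) ≃L[ℂ] EuclideanSpace ℂ (Fin g)}
    {b : EuclideanSpace ℂ (Fin g)} (h : IsCmp L L' D D' y τ ρ G b) (hy : y ∈ L.U) (hy' : y ∈ L'.U)
    {Λ Λ' : AddSubgroup (Fin n → ℤ)}
    (hΛ : ∀ k, k ∈ Λ ↔ ∃ κ ∈ NL L (L.χ y), L.π D y (H64.TD.zr k) = cL L (L.χ y) κ)
    (hΛ' : ∀ k, k ∈ Λ' ↔ ∃ κ ∈ NL L' (L'.χ y), L'.π D' y (H64.TD.zr k) = cL L' (L'.χ y) κ) :
    IsChg (Qf B) (L.π D y) (L'.π D' y) Λ Λ' G where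
  chg := h.per
  fwd := by
    intro k hk
    obtain ⟨κ, hκ, hkκ⟩ := (hΛ k).1 hk
    obtain ⟨κ', hκ', hG⟩ := (h.NL_map hy hy').1 κ hκ
    have h1 : L'.π D' y (H64.TD.zr (kkL L' κ')) = cL L' (L'.χ y) κ' := π_zr hF2 hd hn D' hy' κ'
    exact ⟨kkL L' κ', (hΛ' _).2 ⟨κ', hκ', h1⟩, by rw [hkκ, hG, h1]⟩
  bwd := by
    intro k' hk'
    obtain ⟨κ', hκ', hkκ'⟩ := (hΛ' k').1 hk'
    obtain ⟨κ, hκ, hG⟩ := (h.NL_map hy hy').2 κ' hκ'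
    have h1 : L.π D y (H64.TD.zr (kkL L κ)) = cL L (L.χ y) κ := π_zr hF2 hd hn D hy κ
    exact ⟨kkL L κ, (hΛ _).2 ⟨κ, hκ, h1⟩, by rw [hkκ', h1, hG]⟩

/-- **the linear fields of `IsOrbM`** for a family of local data -/
theorem exists_linL (I : Inputs) (hd : 0 < d) (hn : n = 2 * g)
    (hf : ContMDiff 𝓘(ℂ, Cm (p + d)) 𝓘(ℂ, Cm p) ω f) (hw : IsKahler w) {S : Set Y}
    (hS : IsPreconnected Sᶜ) (hne : Sᶜ.Nonempty) {ι : Type}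
    {L : ι → DLocE (p := p) (d := d) f w m B g}
    {D : ι → ((Fin n → ℝ) ≃L[ℝ] EuclideanSpace ℂ (Fin g))}
    (hP : IsPeriodFamily (Cm p) S (Qf B) (fun a => (L a).U) (fun a => (L a).π (D a)))
    (him : ∀ a, ImL (L a)) (hTc : ∀ a, IsPreconnected (L a).T') (hTn : ∀ a, (L a).T'.Nonempty)
    {r : ℕ} (hN : ∀ y ∉ S, H64.TK.TE.NDegE (p + d) p d m r f y)
    (hN' : ∀ y ∉ S, ¬ H64.TK.TE.NDegE (p + d) p d m (r + 1) f y) :
    ∃ (b nb : ℕ) (QB : (Fin nb → ℝ) → (Fin nb → ℝ) → ℝ) (ι' : Type) (s : ι' → ι)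
      (U' : ι' → Set Y) (ϖ : ι' → Y → ((Fin nb → ℝ) ≃L[ℝ] EuclideanSpace ℂ (Fin b)))
      (j : ι' → Y → EuclideanSpace ℂ (Fin b) →L[ℂ] EuclideanSpace ℂ (Fin g))
      (ℓ : ι' → Y → EuclideanSpace ℂ (Fin g) →L[ℂ] EuclideanSpace ℂ (Fin b))
      (ρ : ι' → ((Fin nb → ℝ) →L[ℝ] (Fin n → ℝ))) (Λ : ι → AddSubgroup (Fin n → ℤ)),
      b + r = d ∧
      IsLin (Cm p) S (Qf B) QB (fun a => (L a).U) s U' (fun a => (L a).π (D a)) Λ
        (fun a y => Bt (HL (L a)) ((L a).χ y)) ϖ j ℓ ρ ∧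
      (∀ i, ∀ y ∈ U' i, ∀ v, (∃ x, j i y x = v) ↔
        ∀ e, Tan (FL (L (s i)) ((L (s i)).χ y)) e v) ∧
      (∀ i, ∀ y ∈ U' i, ∀ k : Fin nb → ℤ, ∃ κ ∈ NL (L (s i)) ((L (s i)).χ y),
        j i y (ϖ i y (H64.TD.zr k)) = cL (L (s i)) ((L (s i)).χ y) κ) ∧
      ∀ i i', ∀ y ∈ U' i ∩ U' i', ∀ (τ : (L (s i)).E ≃ₜ (L (s i')).E)
        (ρ' : (L (s i)).Γ ≃* (L (s i')).Γ)
        (G : EuclideanSpace ℂ (Fin g) ≃L[ℂ] EuclideanSpace ℂ (Fin g))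
        (c : EuclideanSpace ℂ (Fin g)),
        IsCmp (L (s i)) (L (s i')) (D (s i)) (D (s i')) y τ ρ' G c →
        ∃ Gb : EuclideanSpace ℂ (Fin b) ≃L[ℂ] EuclideanSpace ℂ (Fin b),
          IsPeriodChange QB (ϖ i y) (ϖ i' y) Gb ∧ (∀ v, j i' y (Gb v) = G (j i y v)) ∧
          ∀ v, ℓ i' y (G v) = Gb (ℓ i y v) := by
  have hUS : ∀ a, ∀ y ∈ (L a).U, y ∉ S := fun a y hy => (hP.cover y).2 ⟨a, hy⟩
  have hdim : ∀ a, ∀ y ∈ (L a).U, Module.finrank ℂ (Bt (HL (L a)) ((L a).χ y)) + r = d :=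
    fun a y hy => finrank_BtL I hd hf hw (him a) hy (hN y (hUS a y hy)) (hN' y (hUS a y hy))
  have hb : ∀ a, ∀ t ∈ (L a).T', Module.finrank ℂ (Bt (HL (L a)) t) = d - r := by
    intro a t ht
    obtain ⟨h1, h2⟩ := symm_mem ht
    have h3 := hdim a _ h1
    rw [h2] at h3
    omega
  choose Λ hΛ1 hΛ2 using fun a => exists_LamL I.f2 hd hn (D a) (him a) (hTc a) (hTn a) (hb a)
  have hchg : ∀ a a', ∀ y ∈ (L a).U ∩ (L a').U, ∀ (τ : (L a).E ≃ₜ (L a').E)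
      (ρ' : (L a).Γ ≃* (L a').Γ)
      (G : EuclideanSpace ℂ (Fin g) ≃L[ℂ] EuclideanSpace ℂ (Fin g))
      (c : EuclideanSpace ℂ (Fin g)), IsCmp (L a) (L a') (D a) (D a') y τ ρ' G c →
      IsChg (Qf B) ((L a).π (D a) y) ((L a').π (D a') y) (Λ a) (Λ a') G := by
    intro a a' y hy τ ρ' G c h
    exact isChg_of_cmp I.f2 hd hn h hy.1 hy.2 (hΛ2 a y hy.1) (hΛ2 a' y hy.2)
  obtain ⟨nb, b, QB, ι', s, U', ϖ, j, ℓ, ρ, hL⟩ := exists_lin (E' := Cm p) hP hS (Λ := Λ)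
    (B := fun a y => Bt (HL (L a)) ((L a).χ y)) hΛ1 (by
      intro a a' y hy
      obtain ⟨e⟩ : Nonempty (L a).E := inferInstance
      have h1 : f ((L a).q ((L a).χ y) e) = y := by
        rw [(L a).model.fib _ ((L a).hT' hy.1.2), (L a).left_inv hy.1]
      obtain ⟨e', he'⟩ := (L a').exists_pt (x := (L a).q ((L a).χ y) e) (by rw [h1]; exact hy.2)
      rw [h1] at he'
      obtain ⟨τ, ρ', G, c, h2, -⟩ := exists_cmp I hd hn hf hw (L a) (L a') (D a) (D a')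
        hy.1 hy.2 he'.symm
      exact ⟨G, hchg a a' y hy τ ρ' G c h2⟩)
  have hbr : b + r = d := by
    obtain ⟨y, hy⟩ := hne
    obtain ⟨i, hi⟩ := (hL.per.cover y).1 hy
    have h1 := hL.dim i y hi
    have h2 := hdim (s i) y (hL.sub i hi)
    rw [finrank_euclideanSpace_fin] at h1
    rw [← h1]
    exact h2
  refine ⟨b, nb, QB, ι', s, U', ϖ, j, ℓ, ρ, Λ, hbr, hL, ?_, ?_, ?_⟩
  · intro i y hy v
    rw [← hL.rng i y hy v]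
    exact mem_BtL (him (s i)) (hL.sub i hy).2
  · intro i y hy k
    obtain ⟨l, hl, h1⟩ := (hL.rho i).int k
    obtain ⟨κ, hκ, h2⟩ := (hΛ2 (s i) y (hL.sub i hy) l).1 hl
    exact ⟨κ, hκ, by rw [hL.jper i y hy, h1]; exact h2⟩
  · intro i i' y hy τ ρ' G c h
    exact hL.change i i' y hy G
      (hchg (s i) (s i') y ⟨hL.sub i hy.1, hL.sub i' hy.2⟩ τ ρ' G c h)

end Vale.Agent.P281.H152.R
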