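import Vale.Agent.P281.H152.R.Bt

/-!
# P281, T-UD, block R6 (helper152), part 2: the everywhere tangent vectors form a constant rational
subspace.
-/

open Set Filter Metric
open scoped Topology ContDiff

noncomputable section

namespace Vale.Agent.P281.H152.R

/-- integral vectors as real vectors -/
def zr {n : ℕ} (m : Fin n → ℤ) : Fin n → ℝ := fun i => (m i : ℝ)

variable {d n : ℕ} {P V : Type*} [NormedAddCommGroup P] [NormedSpace ℂ P] [NormedAddCommGroup V]
  [NormedSpace ℂ V] {I : Type*}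

theorem finrank_real (B : Submodule ℂ V) :
    Module.finrank ℝ (B.restrictScalars ℝ) = 2 * Module.finrank ℂ B :=
  finrank_real_of_complex B

/-- cobounded sets span -/
theorem span_of_cobounded {W : Type*} [NormedAddCommGroup W] [NormedSpace ℝ W]
    [FiniteDimensional ℝ W] {Λ : Set W} {R : ℝ} (h : ∀ v : W, ∃ l ∈ Λ, ‖v + l‖ ≤ R) :
    Submodule.span ℝ Λ = ⊤ := by
  by_contra hne
  obtain ⟨f, hf0, hf⟩ := Submodule.exists_le_ker_of_lt_top _ (lt_top_iff_ne_top.2 hne)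
  let g : W →L[ℝ] ℝ := LinearMap.toContinuousLinearMap f
  have hg : ∀ v, ‖f v‖ ≤ ‖g‖ * R := by
    intro v
    obtain ⟨l, hl, hvl⟩ := h v
    have h1 : f l = 0 := hf (Submodule.subset_span hl)
    have h2 : f v = g (v + l) := by
      show f v = f (v + l)
      rw [map_add, h1, add_zero]
    rw [h2]
    exact (g.le_opNorm _).trans (mul_le_mul_of_nonneg_left hvl (norm_nonneg _))
  obtain ⟨v₀, hv₀⟩ : ∃ v, f v ≠ 0 := by
    by_contra hcon
    push Not at hcon
    exact hf0 (LinearMap.ext hcon)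
  have h3 : 0 < ‖f v₀‖ := norm_pos_iff.2 hv₀
  obtain ⟨k, hk⟩ := exists_nat_gt (‖g‖ * R / ‖f v₀‖)
  rw [div_lt_iff₀ h3] at hk
  have h4 := hg ((k : ℝ) • v₀)
  rw [map_smul, norm_smul, Real.norm_natCast] at h4
  linarith

/-- a cobounded set of periods in `B` contains a finite set spanning `B` -/
theorem exists_finset [FiniteDimensional ℂ V] {π : (Fin n → ℝ) ≃L[ℝ] V} {B : Submodule ℂ V}
    {Λ : Set (Fin n → ℤ)} (h1 : ∀ k ∈ Λ, π (zr k) ∈ B) {R : ℝ}
    (h2 : ∀ v ∈ B, ∃ k ∈ Λ, ‖v + π (zr k)‖ ≤ R) :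
    ∃ s : Finset (Fin n → ℤ), (s : Set (Fin n → ℤ)) ⊆ Λ ∧
      B.restrictScalars ℝ = Submodule.span ℝ ((fun k => π (zr k)) '' (s : Set (Fin n → ℤ))) := by
  classical
  have : FiniteDimensional ℝ V := FiniteDimensional.complexToReal V
  set B' : Submodule ℝ V := B.restrictScalars ℝ with hB'
  have h3 : Submodule.span ℝ ({l : B' | ∃ k ∈ Λ, (l : V) = π (zr k)} : Set B') = ⊤ := by
    refine span_of_cobounded (R := R) fun v => ?_
    obtain ⟨k, hk, hvk⟩ := h2 v.1 v.2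
    exact ⟨⟨π (zr k), h1 k hk⟩, ⟨k, hk, rfl⟩, hvk⟩
  have h4 : Submodule.span ℝ ((fun k => π (zr k)) '' Λ) = B' := by
    have h5 := congrArg (Submodule.map B'.subtype) h3
    rw [Submodule.map_span, Submodule.map_subtype_top] at h5
    rw [← h5]
    congr 1
    ext v
    constructor
    · rintro ⟨k, hk, rfl⟩
      exact ⟨⟨π (zr k), h1 k hk⟩, ⟨k, hk, rfl⟩, rfl⟩
    · rintro ⟨l, ⟨k, hk, hl⟩, rfl⟩
      exact ⟨k, hk, hl.symm⟩
  have h6 : (Submodule.span ℝ ((fun k => π (zr k)) '' Λ)).FG := IsNoetherian.noetherian _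
  obtain ⟨s', hs', hs''⟩ := (Submodule.fg_span_iff_fg_span_finset_subset _).1 h6
  have h7 : ∀ v : V, ∃ k : Fin n → ℤ, v ∈ s' → k ∈ Λ ∧ π (zr k) = v := by
    intro v
    by_cases hv : v ∈ s'
    · obtain ⟨k, hk, hkv⟩ := hs' hv
      exact ⟨k, fun _ => ⟨hk, hkv⟩⟩
    · exact ⟨0, fun h => absurd h hv⟩
  choose κ hκ using h7
  refine ⟨s'.image κ, ?_, ?_⟩
  · intro k hk
    rw [Finset.coe_image] at hk
    obtain ⟨v, hv, rfl⟩ := hk
    exact (hκ v hv).1
  · rw [← h4, hs'']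
    congr 1
    ext v
    constructor
    · intro hv
      refine ⟨κ v, ?_, (hκ v hv).2⟩
      rw [Finset.coe_image]
      exact ⟨v, hv, rfl⟩
    · rintro ⟨k, hk, rfl⟩
      rw [Finset.coe_image] at hk
      obtain ⟨v, hv, rfl⟩ := hk
      show π (zr (κ v)) ∈ (s' : Set V)
      rw [(hκ v hv).2]
      exact hv

variable [FiniteDimensional ℂ V] {T : Set P} {H : I → P × Cm d → V}

/-- **R6**: the everywhere tangent vectors form a constant rational subspace. -/
theorem exists_R0 [FiniteDimensional ℂ P] (hTo : IsOpen T) (hTc : IsPreconnected T)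
    (hTn : T.Nonempty) (hH : IsFamH T H) {b : ℕ} {π : P → ((Fin n → ℝ) ≃L[ℝ] V)}
    (hπ : ∀ x, ∀ t ∈ T, AnalyticAt ℂ (fun s => π s x) t)
    (hb : ∀ t ∈ T, Module.finrank ℂ (Bt H t) = b)
    (hr : ∀ t ∈ T, ∃ s : Finset (Fin n → ℤ), (Bt H t).restrictScalars ℝ =
      Submodule.span ℝ ((fun k => π t (zr k)) '' (s : Set (Fin n → ℤ)))) :
    ∃ s : Finset (Fin n → ℤ), Module.finrank ℝ (Submodule.span ℝ (zr '' (s : Set (Fin n → ℤ)))) =
        2 * b ∧
      ∀ t ∈ T, ∀ x, π t x ∈ Bt H t ↔ x ∈ Submodule.span ℝ (zr '' (s : Set (Fin n → ℤ))) := by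
  classical
  have : FiniteDimensional ℝ V := FiniteDimensional.complexToReal V
  have hmap : ∀ (t : P) (s : Set (Fin n → ℤ)), Submodule.span ℝ ((fun k => π t (zr k)) '' s) =
      (Submodule.span ℝ (zr '' s)).map ((π t : (Fin n → ℝ) →L[ℝ] V) : (Fin n → ℝ) →ₗ[ℝ] V) := by
    intro t s
    rw [Submodule.map_span, ← image_comp]
    rfl
  have hfr : ∀ (t : P) (R : Submodule ℝ (Fin n → ℝ)), Module.finrank ℝ
      (R.map ((π t : (Fin n → ℝ) →L[ℝ] V) : (Fin n → ℝ) →ₗ[ℝ] V)) = Module.finrank ℝ R := by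
    intro t R
    exact LinearEquiv.finrank_map_eq (π t).toLinearEquiv R
  have : Nonempty T := hTn.to_subtype
  have : LocallyCompactSpace P := by
    have := FiniteDimensional.proper ℂ P
    infer_instance
  have : LocallyCompactSpace T := hTo.isOpenEmbedding_subtypeVal.locallyCompactSpace
  let C : {s : Finset (Fin n → ℤ) // Module.finrank ℝ
      (Submodule.span ℝ (zr '' (s : Set (Fin n → ℤ)))) = 2 * b} → Set T :=
    fun s => {t | ∀ k ∈ s.1, π t (zr k) ∈ Bt H t}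
  have hC : ∀ s, IsClosed (C s) := by
    intro s
    rw [isClosed_iff_frequently]
    intro t ht k hk
    refine Bt_closed hH (v := fun t => π t (zr k)) (fun t ht => hπ _ t ht) t.2 ?_
    refine (continuous_subtype_val.tendsto t).frequently (p := fun s => π s (zr k) ∈ Bt H s) ?_
    exact ht.mono fun s hs => hs k hk
  have hU : ⋃ s, C s = univ := by
    rw [eq_univ_iff_forall]
    intro t
    obtain ⟨s, hs⟩ := hr t.1 t.2
    have h1 : Module.finrank ℝ (Submodule.span ℝ (zr '' (s : Set (Fin n → ℤ)))) = 2 * b := by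
      rw [← hfr t.1, ← hmap, ← hs, finrank_real, hb t.1 t.2]
    refine mem_iUnion.2 ⟨⟨s, h1⟩, fun k hk => ?_⟩
    have h2 : π t.1 (zr k) ∈ (Bt H t.1).restrictScalars ℝ := by
      rw [hs]
      exact Submodule.subset_span ⟨k, hk, rfl⟩
    exact h2
  obtain ⟨s, hs⟩ := nonempty_interior_of_iUnion_of_closed hC hU
  obtain ⟨t₀, ht₀⟩ := hs
  have h1 : ∀ᶠ t : P in 𝓝 t₀.1, ∀ k ∈ s.1, π t (zr k) ∈ Bt H t := by
    have h2 : ∀ᶠ t : T in 𝓝 t₀, t ∈ C s := mem_interior_iff_mem_nhds.1 ht₀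
    rw [← map_nhds_subtype_coe_eq_nhds t₀.2 (hTo.mem_nhds t₀.2), eventually_map]
    filter_upwards [h2] with t ht using ht
  refine ⟨s.1, s.2, fun t ht x => ?_⟩
  have h3 : ∀ k ∈ s.1, π t (zr k) ∈ Bt H t := fun k hk =>
    Bt_ident hH hTc (v := fun t => π t (zr k)) (fun t ht => hπ _ t ht) t₀.2
      (h1.mono fun s' hs' => hs' k hk) t ht
  have h4 : (Submodule.span ℝ (zr '' (s.1 : Set (Fin n → ℤ)))).map
      ((π t : (Fin n → ℝ) →L[ℝ] V) : (Fin n → ℝ) →ₗ[ℝ] V) = (Bt H t).restrictScalars ℝ := by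
    refine Submodule.eq_of_le_of_finrank_eq ?_ ?_
    · rw [← hmap, Submodule.span_le]
      rintro _ ⟨k, hk, rfl⟩
      exact h3 k hk
    · rw [hfr, s.2, finrank_real, hb t ht]
  constructor
  · intro hx
    have h5 : π t x ∈ (Bt H t).restrictScalars ℝ := hx
    rw [← h4] at h5
    obtain ⟨x', hx', hxx⟩ := h5
    have h6 : x' = x := (π t).injective hxx
    rwa [← h6]
  · intro hx
    have h5 : π t x ∈ (Bt H t).restrictScalars ℝ := by
      rw [← h4]
      exact ⟨x, hx, rfl⟩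
    exact h5

end Vale.Agent.P281.H152.R
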